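import Mathlib

/-!
The double layer positivity and the proof of the bound `2` for one contour.
-/

open scoped ComplexConjugate
open Complex MeasureTheory

namespace Vale.Agent.P123

/-- The unit vector `exp (iθ)`. -/
noncomputable def e (θ : ℝ) : ℂ := Complex.exp ((θ : ℂ) * Complex.I)

theorem conj_e_mul_e (θ : ℝ) : conj (e θ) * e θ = 1 := by
  rw [e, ← Complex.exp_conj, ← Complex.exp_add]; simp

theorem norm_e (θ : ℝ) : ‖e θ‖ = 1 := Complex.norm_exp_ofReal_mul_I θ

theorem continuous_e : Continuous e := by unfold e; fun_prop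

theorem e_two_pi : e (2 * Real.pi) = e 0 := by
  simp only [e]; push_cast; simp

theorem e_ne_zero (θ : ℝ) : e θ ≠ 0 := Complex.exp_ne_zero _

variable {H : Type*} [NormedAddCommGroup H] [InnerProductSpace ℂ H] [CompleteSpace H]

/-- A convex contour with its outward normal `e θ`, strictly supporting the operator. -/
structure Frame (A : H →L[ℂ] H) where
  γ : ℝ → ℂ
  ρ : ℝ → ℝ
  ε : ℝ
  z0 : ℂ
  ε_pos : 0 < ε
  ρ_nonneg : ∀ θ, 0 ≤ ρ θ
  ρ_cont : Continuous ρ
  γ_deriv : ∀ θ, HasDerivAt γ (Complex.I * (ρ θ : ℂ) * e θ) θ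
  γ_per : γ (2 * Real.pi) = γ 0
  supp : ∀ θ (v : H), ε * ‖v‖ ^ 2 ≤ (conj (e θ) * inner ℂ v (γ θ • v - A v)).re
  supp0 : ∀ θ, ε ≤ (conj (e θ) * (γ θ - z0)).re

/-- A strongly accretive operator is invertible, with the usual bound on the inverse. -/
theorem isUnit_of_accretive (T : H →L[ℂ] H) {ε : ℝ} (hε : 0 < ε)
    (h : ∀ v, ε * ‖v‖ ^ 2 ≤ (inner ℂ v (T v)).re) :
    IsUnit T ∧ ∀ v, ε * ‖v‖ ≤ ‖T v‖ := by
  have hb : ∀ v, ε * ‖v‖ ≤ ‖T v‖ := by
    intro v
    rcases (norm_nonneg v).eq_or_lt with hv | hv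
    · rw [← hv]; simp
    · refine le_of_mul_le_mul_left ?_ hv
      calc ‖v‖ * (ε * ‖v‖) = ε * ‖v‖ ^ 2 := by ring
        _ ≤ (inner ℂ v (T v)).re := h v
        _ ≤ ‖inner ℂ v (T v)‖ := Complex.re_le_norm _
        _ ≤ ‖v‖ * ‖T v‖ := norm_inner_le_norm _ _
  refine ⟨?_, hb⟩
  set s : ℝ := ε / (‖T‖ ^ 2 + ε ^ 2) with hs
  have hden : 0 < ‖T‖ ^ 2 + ε ^ 2 := by positivity
  have hs0 : 0 < s := div_pos hε hden
  set q : ℝ := Real.sqrt (1 - s * ε) with hq
  have hse : s * ε ≤ 1 := by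
    rw [hs, div_mul_eq_mul_div, div_le_one hden]; nlinarith [sq_nonneg ‖T‖]
  have hq1 : q < 1 := by
    rw [hq, Real.sqrt_lt' one_pos]; nlinarith [mul_pos hs0 hε]
  have hnorm : ‖(1 : H →L[ℂ] H) - (s : ℂ) • T‖ ≤ q := by
    refine ContinuousLinearMap.opNorm_le_bound _ (Real.sqrt_nonneg _) fun v => ?_
    have h2 : ‖v - (s : ℂ) • T v‖ ^ 2 ≤ (1 - s * ε) * ‖v‖ ^ 2 := by
      rw [@norm_sub_sq ℂ, norm_smul, inner_smul_right, Complex.norm_real, Real.norm_eq_abs,
        abs_of_pos hs0]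
      have hre : RCLike.re ((s : ℂ) * inner ℂ v (T v)) = s * (inner ℂ v (T v)).re := by simp
      rw [hre]
      have h4 : ‖T v‖ ^ 2 ≤ (‖T‖ * ‖v‖) ^ 2 := pow_le_pow_left₀ (norm_nonneg _) (T.le_opNorm v) 2
      have h5 : s * ‖T‖ ^ 2 ≤ ε := by
        rw [hs, div_mul_eq_mul_div, div_le_iff₀ hden]
        nlinarith [mul_nonneg hε.le (sq_nonneg ε)]
      nlinarith [mul_le_mul_of_nonneg_left (h v) hs0.le,
        mul_le_mul_of_nonneg_left h4 (mul_nonneg hs0.le hs0.le),
        mul_le_mul_of_nonneg_left h5 (mul_nonneg hs0.le (sq_nonneg ‖v‖))]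
    calc ‖((1 : H →L[ℂ] H) - (s : ℂ) • T) v‖ = Real.sqrt (‖v - (s : ℂ) • T v‖ ^ 2) := by
          rw [Real.sqrt_sq (norm_nonneg _)]; simp
      _ ≤ Real.sqrt ((1 - s * ε) * ‖v‖ ^ 2) := Real.sqrt_le_sqrt h2
      _ = q * ‖v‖ := by rw [Real.sqrt_mul (by linarith), Real.sqrt_sq (norm_nonneg _), hq]
  have hu : IsUnit ((s : ℂ) • T) := by
    have := isUnit_one_sub_of_norm_lt_one (hnorm.trans_lt hq1)
    simpa using this
  have hsc : IsUnit (s : ℂ) := isUnit_iff_ne_zero.2 (by exact_mod_cast hs0.ne')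
  have : (hsc.unit⁻¹ : ℂˣ) • ((s : ℂ) • T) = T := by
    rw [Units.smul_def, smul_smul, IsUnit.val_inv_mul, one_smul]
  rw [← this]
  exact hu.smul _

/-- The inverse commutes with whatever the element commutes with. -/
theorem commute_ringInverse {M X : H →L[ℂ] H} (hM : IsUnit M) (h : Commute M X) :
    Commute (Ring.inverse M) X := by
  unfold Commute SemiconjBy
  calc Ring.inverse M * X = Ring.inverse M * (X * M) * Ring.inverse M := by
        rw [mul_assoc, mul_assoc, Ring.mul_inverse_cancel _ hM, mul_one]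
    _ = Ring.inverse M * M * (X * Ring.inverse M) := by rw [← h.eq]; simp only [mul_assoc]
    _ = X * Ring.inverse M := by rw [Ring.inverse_mul_cancel _ hM, one_mul]

variable {A : H →L[ℂ] H} (F : Frame A)

namespace Frame

/-- The interpolated operator between the scalar `z0` and `A`. -/
noncomputable def At (t : ℝ) : H →L[ℂ] H :=
  (t : ℂ) • A + ((1 - t : ℝ) : ℂ) • (F.z0 • (1 : H →L[ℂ] H))

/-- The resolvent along the contour. -/
noncomputable def Rt (t θ : ℝ) : H →L[ℂ] H :=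
  Ring.inverse (F.γ θ • (1 : H →L[ℂ] H) - F.At t)

/-- The resolvent of `A` along the contour. -/
noncomputable def R (θ : ℝ) : H →L[ℂ] H := Ring.inverse (F.γ θ • (1 : H →L[ℂ] H) - A)

theorem At_one : F.At 1 = A := by simp [At]

theorem Rt_one : F.Rt 1 = F.R := by ext1 θ; simp [Rt, R, F.At_one]

theorem supp_t {t : ℝ} (h0 : 0 ≤ t) (h1 : t ≤ 1) (θ : ℝ) (v : H) :
    F.ε * ‖v‖ ^ 2 ≤ (inner ℂ v ((conj (e θ) • (F.γ θ • (1 : H →L[ℂ] H) - F.At t)) v)).re := by
  have ha := mul_le_mul_of_nonneg_left (F.supp θ v) h0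
  have hb := mul_le_mul_of_nonneg_left
    (mul_le_mul_of_nonneg_right (F.supp0 θ) (sq_nonneg ‖v‖)) (sub_nonneg.2 h1)
  have heq : inner ℂ v ((conj (e θ) • (F.γ θ • (1 : H →L[ℂ] H) - F.At t)) v)
      = (t : ℂ) * (conj (e θ) * inner ℂ v (F.γ θ • v - A v))
        + ((1 - t : ℝ) : ℂ) * ((conj (e θ) * (F.γ θ - F.z0)) * ((‖v‖ ^ 2 : ℝ) : ℂ)) := by
    simp [At, inner_smul_right, inner_sub_right, inner_add_right, inner_self_eq_norm_sq_to_K]
    ring
  rw [heq, Complex.add_re, Complex.re_ofReal_mul, Complex.re_ofReal_mul, Complex.re_mul_ofReal]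
  nlinarith

theorem isUnit_Mt {t : ℝ} (h0 : 0 ≤ t) (h1 : t ≤ 1) (θ : ℝ) :
    IsUnit (F.γ θ • (1 : H →L[ℂ] H) - F.At t) := by
  have hc : IsUnit (conj (e θ)) := isUnit_iff_ne_zero.2 (by simpa using e_ne_zero θ)
  have h := (isUnit_of_accretive _ F.ε_pos (F.supp_t h0 h1 θ)).1
  have := h.smul hc.unit⁻¹
  rwa [Units.smul_def, smul_smul, IsUnit.val_inv_mul, one_smul] at this

theorem Mt_mul_Rt {t : ℝ} (h0 : 0 ≤ t) (h1 : t ≤ 1) (θ : ℝ) :
    (F.γ θ • (1 : H →L[ℂ] H) - F.At t) * F.Rt t θ = 1 :=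
  Ring.mul_inverse_cancel _ (F.isUnit_Mt h0 h1 θ)

theorem Rt_mul_Mt {t : ℝ} (h0 : 0 ≤ t) (h1 : t ≤ 1) (θ : ℝ) :
    F.Rt t θ * (F.γ θ • (1 : H →L[ℂ] H) - F.At t) = 1 :=
  Ring.inverse_mul_cancel _ (F.isUnit_Mt h0 h1 θ)

theorem M_mul_R (θ : ℝ) : (F.γ θ • (1 : H →L[ℂ] H) - A) * F.R θ = 1 := by
  simpa [F.At_one, F.Rt_one] using F.Mt_mul_Rt zero_le_one le_rfl θ

theorem R_mul_M (θ : ℝ) : F.R θ * (F.γ θ • (1 : H →L[ℂ] H) - A) = 1 := by
  simpa [F.At_one, F.Rt_one] using F.Rt_mul_Mt zero_le_one le_rfl θ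

theorem norm_Rt {t : ℝ} (h0 : 0 ≤ t) (h1 : t ≤ 1) (θ : ℝ) : ‖F.Rt t θ‖ ≤ 1 / F.ε := by
  refine ContinuousLinearMap.opNorm_le_bound _ (by have := F.ε_pos; positivity) fun v => ?_
  have h := (isUnit_of_accretive _ F.ε_pos (F.supp_t h0 h1 θ)).2 (F.Rt t θ v)
  have h' : (F.γ θ • (1 : H →L[ℂ] H) - F.At t) (F.Rt t θ v) = v := by
    have := congrArg (fun T : H →L[ℂ] H => T v) (F.Mt_mul_Rt h0 h1 θ)
    simpa using this
  rw [ContinuousLinearMap.smul_apply, norm_smul, RCLike.norm_conj, norm_e, one_mul, h'] at h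
  rw [div_mul_eq_mul_div, one_mul, le_div_iff₀ F.ε_pos, mul_comm]
  exact h

theorem norm_R (θ : ℝ) : ‖F.R θ‖ ≤ 1 / F.ε := by
  rw [← F.Rt_one]; exact F.norm_Rt zero_le_one le_rfl θ

theorem continuous_γ : Continuous F.γ :=
  continuous_iff_continuousAt.2 fun θ => (F.γ_deriv θ).continuousAt

theorem hasDerivAt_Rt {t : ℝ} (h0 : 0 ≤ t) (h1 : t ≤ 1) (θ : ℝ) :
    HasDerivAt (F.Rt t)
      (-((Complex.I * (F.ρ θ : ℂ) * e θ) • (F.Rt t θ * F.Rt t θ))) θ := by
  obtain ⟨u, hu⟩ := F.isUnit_Mt h0 h1 θ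
  have hM : HasDerivAt (fun s => F.γ s • (1 : H →L[ℂ] H) - F.At t)
      ((Complex.I * (F.ρ θ : ℂ) * e θ) • (1 : H →L[ℂ] H)) θ :=
    ((F.γ_deriv θ).smul_const _).sub_const _
  have h := (hu ▸ hasFDerivAt_ringInverse (𝕜 := ℝ) u :
    HasFDerivAt Ring.inverse _ (F.γ θ • (1 : H →L[ℂ] H) - F.At t))
  refine (h.comp_hasDerivAt θ hM).congr_deriv ?_
  simp [Rt, ← hu, Ring.inverse_unit]

theorem continuous_Rt {t : ℝ} (h0 : 0 ≤ t) (h1 : t ≤ 1) : Continuous (F.Rt t) :=
  continuous_iff_continuousAt.2 fun θ => (F.hasDerivAt_Rt h0 h1 θ).continuousAt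

theorem continuous_R : Continuous F.R := by
  rw [← F.Rt_one]; exact F.continuous_Rt zero_le_one le_rfl

/-- The Cauchy integral of a boundary function. -/
noncomputable def J (φ : ℝ → ℂ) : H →L[ℂ] H :=
  ((2 * Real.pi)⁻¹ : ℝ) • ∫ θ in (0 : ℝ)..(2 * Real.pi), (φ θ * (F.ρ θ : ℂ) * e θ) • F.R θ

theorem continuous_weight {φ : ℝ → ℂ} (hφ : Continuous φ) :
    Continuous fun θ => φ θ * (F.ρ θ : ℂ) * e θ :=
  (hφ.mul (Complex.continuous_ofReal.comp F.ρ_cont)).mul continuous_e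

theorem integrable_J {φ : ℝ → ℂ} (hφ : Continuous φ) :
    IntervalIntegrable (fun θ => (φ θ * (F.ρ θ : ℂ) * e θ) • F.R θ) volume 0 (2 * Real.pi) :=
  ((F.continuous_weight hφ).smul F.continuous_R).intervalIntegrable _ _

theorem scalar_winding :
    ∫ θ in (0 : ℝ)..(2 * Real.pi), (F.ρ θ : ℂ) * e θ / (F.γ θ - F.z0) = 2 * Real.pi := by
  set q : ℝ → ℂ := fun θ => conj (e θ) * (F.γ θ - F.z0) with hq
  have hslit : ∀ θ, q θ ∈ Complex.slitPlane := fun θ =>
    Complex.mem_slitPlane_iff.2 (Or.inl (F.ε_pos.trans_le (F.supp0 θ)))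
  have hqne : ∀ θ, F.γ θ - F.z0 ≠ 0 := by
    intro θ h
    have := F.supp0 θ
    rw [h] at this
    simp at this
    linarith [F.ε_pos]
  have hlog : ∀ θ, HasDerivAt (fun s => Complex.log (q s))
      (Complex.I * ((F.ρ θ : ℂ) * e θ / (F.γ θ - F.z0) - 1)) θ := by
    intro θ
    have he : HasDerivAt (fun s => conj (e s)) (conj (e θ) * -Complex.I) θ := by
      have he' : ∀ s : ℝ, conj (e s) = Complex.exp ((s : ℂ) * -Complex.I) := fun s => by
        rw [e, ← Complex.exp_conj]; simp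
      simp only [he']
      simpa using (((hasDerivAt_id (θ : ℂ)).mul_const (-Complex.I)).cexp).comp_ofReal
    have hd : HasDerivAt q _ θ := he.mul ((F.γ_deriv θ).sub_const F.z0)
    refine (hd.clog_real (hslit θ)).congr_deriv ?_
    simp only [hq]
    have h1 : conj (e θ) ≠ 0 := by simpa using e_ne_zero θ
    field_simp [hqne θ]
    ring
  have hc : Continuous fun θ => (F.ρ θ : ℂ) * e θ / (F.γ θ - F.z0) :=
    Continuous.div ((Complex.continuous_ofReal.comp F.ρ_cont).mul continuous_e)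
      (F.continuous_γ.sub continuous_const) hqne
  have h := intervalIntegral.integral_eq_sub_of_hasDerivAt (fun θ _ => hlog θ)
    ((continuous_const.mul (hc.sub continuous_const)).intervalIntegrable 0 (2 * Real.pi))
  rw [intervalIntegral.integral_const_mul, intervalIntegral.integral_sub
    (hc.intervalIntegrable _ _) intervalIntegrable_const,
    intervalIntegral.integral_const] at h
  have hper : q (2 * Real.pi) = q 0 := by simp only [hq, e_two_pi, F.γ_per]
  rw [hper, sub_self, mul_eq_zero] at h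
  have h' := sub_eq_zero.1 (h.resolve_left Complex.I_ne_zero)
  rw [h']; simp

/-- The winding integral for the interpolated operator. -/
noncomputable def wind (t : ℝ) : H →L[ℂ] H :=
  ∫ θ in (0 : ℝ)..(2 * Real.pi), ((F.ρ θ : ℂ) * e θ) • F.Rt t θ

theorem wind_zero : F.wind 0 = ((2 * Real.pi : ℝ) : ℂ) • (1 : H →L[ℂ] H) := by
  have h : ∀ θ, ((F.ρ θ : ℂ) * e θ) • F.Rt 0 θ
      = ((F.ρ θ : ℂ) * e θ / (F.γ θ - F.z0)) • (1 : H →L[ℂ] H) := by
    intro θ
    have hne : F.γ θ - F.z0 ≠ 0 := by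
      intro h
      have := F.supp0 θ
      rw [h] at this
      simp at this
      linarith [F.ε_pos]
    have hR := F.Mt_mul_Rt le_rfl zero_le_one θ
    have hM : F.γ θ • (1 : H →L[ℂ] H) - F.At 0 = (F.γ θ - F.z0) • (1 : H →L[ℂ] H) := by
      simp [At, sub_smul]
    rw [hM, smul_mul_assoc, one_mul] at hR
    have : F.Rt 0 θ = (F.γ θ - F.z0)⁻¹ • (1 : H →L[ℂ] H) := by
      rw [← hR, inv_smul_smul₀ hne]
    rw [this, smul_smul, div_eq_mul_inv]
  simp only [wind, h, intervalIntegral.integral_smul_const, F.scalar_winding]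
  simp

theorem wind_sq_zero {t : ℝ} (h0 : 0 ≤ t) (h1 : t ≤ 1) :
    ∫ θ in (0 : ℝ)..(2 * Real.pi), ((F.ρ θ : ℂ) * e θ) • (F.Rt t θ * F.Rt t θ) = 0 := by
  have hd : ∀ θ, HasDerivAt (fun s => Complex.I • F.Rt t s)
      (((F.ρ θ : ℂ) * e θ) • (F.Rt t θ * F.Rt t θ)) θ := by
    intro θ
    refine ((F.hasDerivAt_Rt h0 h1 θ).const_smul Complex.I).congr_deriv ?_
    rw [smul_neg, smul_smul, ← neg_smul]
    congr 1
    linear_combination (-((F.ρ θ : ℂ) * e θ)) * Complex.I_sq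
  have hc : Continuous fun θ => ((F.ρ θ : ℂ) * e θ) • (F.Rt t θ * F.Rt t θ) :=
    ((Complex.continuous_ofReal.comp F.ρ_cont).mul continuous_e).smul
      ((F.continuous_Rt h0 h1).mul (F.continuous_Rt h0 h1))
  rw [intervalIntegral.integral_eq_sub_of_hasDerivAt (fun θ _ => hd θ)
    (hc.intervalIntegrable _ _)]
  have : F.Rt t (2 * Real.pi) = F.Rt t 0 := by simp [Rt, F.γ_per]
  rw [this, sub_self]

theorem wind_one : F.wind 1 = F.wind 0 := by
  obtain ⟨P, hP⟩ := isCompact_Icc.bddAbove_image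
    (F.ρ_cont.continuousOn (s := Set.Icc (0 : ℝ) (2 * Real.pi)))
  set D : H →L[ℂ] H := A - F.z0 • (1 : H →L[ℂ] H) with hD
  set K : ℝ := P * ((1 / F.ε) * ‖D‖ * ((1 / F.ε) * ‖D‖ * (1 / F.ε))) with hK
  have key : ∀ s t : ℝ, 0 ≤ s → s ≤ 1 → 0 ≤ t → t ≤ 1 →
      ‖F.wind t - F.wind s‖ ≤ (t - s) ^ 2 * K * (2 * Real.pi) := by
    intro s t hs0 hs1 ht0 ht1
    have hdiff : ∀ θ, F.Rt t θ - F.Rt s θ
        = ((t - s : ℝ) : ℂ) • (F.Rt t θ * D * F.Rt s θ) := by
      intro θ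
      have hsub : (F.γ θ • (1 : H →L[ℂ] H) - F.At s) - (F.γ θ • (1 : H →L[ℂ] H) - F.At t)
          = ((t - s : ℝ) : ℂ) • D := by
        simp only [At, hD]; push_cast; module
      calc F.Rt t θ - F.Rt s θ
          = F.Rt t θ * ((F.γ θ • (1 : H →L[ℂ] H) - F.At s)
              - (F.γ θ • (1 : H →L[ℂ] H) - F.At t)) * F.Rt s θ := by
            rw [mul_sub, sub_mul, F.Rt_mul_Mt ht0 ht1, one_mul, mul_assoc,
              F.Mt_mul_Rt hs0 hs1, mul_one]
        _ = _ := by rw [hsub, mul_smul_comm, smul_mul_assoc]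
    have hDc : ∀ θ, D * F.Rt s θ = F.Rt s θ * D := by
      intro θ
      have hc : Commute (F.γ θ • (1 : H →L[ℂ] H) - F.At s) D := by
        refine Commute.sub_left ((Commute.one_left _).smul_left _) ?_
        refine Commute.add_left (Commute.smul_left ?_ _)
          (Commute.smul_left ((Commute.one_left _).smul_left _) _)
        exact (Commute.refl A).sub_right ((Commute.one_right _).smul_right _)
      exact (commute_ringInverse (F.isUnit_Mt hs0 hs1 θ) hc).eq.symm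
    have hsq := F.wind_sq_zero hs0 hs1
    have hexp : ∀ θ, ((F.ρ θ : ℂ) * e θ) • F.Rt t θ - ((F.ρ θ : ℂ) * e θ) • F.Rt s θ
        - ((t - s : ℝ) : ℂ) • (((F.ρ θ : ℂ) * e θ) • ((F.Rt s θ * F.Rt s θ) * D))
        = ((F.ρ θ : ℂ) * e θ) • ((((t - s) ^ 2 : ℝ) : ℂ) •
            (F.Rt t θ * D * F.Rt s θ * D * F.Rt s θ)) := by
      intro θ
      have h1 : (F.Rt s θ * F.Rt s θ) * D = F.Rt s θ * D * F.Rt s θ := by
        rw [mul_assoc, mul_assoc, hDc θ]
      have h2 : F.Rt t θ * D * F.Rt s θ - F.Rt s θ * D * F.Rt s θ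
          = ((t - s : ℝ) : ℂ) • (F.Rt t θ * D * F.Rt s θ * D * F.Rt s θ) := by
        rw [← sub_mul, ← sub_mul, hdiff, smul_mul_assoc, smul_mul_assoc]
      rw [← smul_sub, hdiff, h1, smul_comm _ ((F.ρ θ : ℂ) * e θ), ← smul_sub, ← smul_sub, h2,
        smul_smul (((t - s : ℝ)) : ℂ)]
      congr 2
      push_cast; ring
    have hρe : Continuous fun θ => (F.ρ θ : ℂ) * e θ :=
      (Complex.continuous_ofReal.comp F.ρ_cont).mul continuous_e
    have cs := (hρe.smul (F.continuous_Rt hs0 hs1)).intervalIntegrable (μ := volume) 0 (2 * Real.pi)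
    have ct := (hρe.smul (F.continuous_Rt ht0 ht1)).intervalIntegrable (μ := volume) 0 (2 * Real.pi)
    have c2 : IntervalIntegrable (fun θ => ((t - s : ℝ) : ℂ) •
        (((F.ρ θ : ℂ) * e θ) • ((F.Rt s θ * F.Rt s θ) * D))) volume 0 (2 * Real.pi) :=
      (Continuous.intervalIntegrable (Continuous.fun_const_smul (hρe.smul
        (((F.continuous_Rt hs0 hs1).mul (F.continuous_Rt hs0 hs1)).mul continuous_const)) _) _ _)
    have hz : ∫ θ in (0 : ℝ)..(2 * Real.pi), ((t - s : ℝ) : ℂ) •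
        (((F.ρ θ : ℂ) * e θ) • ((F.Rt s θ * F.Rt s θ) * D)) = 0 := by
      rw [intervalIntegral.integral_smul]
      have := ((ContinuousLinearMap.mul ℂ (H →L[ℂ] H)).flip D).intervalIntegral_comp_comm
        ((hρe.fun_smul ((F.continuous_Rt hs0 hs1).fun_mul
          (F.continuous_Rt hs0 hs1))).intervalIntegrable (μ := volume) 0 (2 * Real.pi))
      simp only [ContinuousLinearMap.flip_apply, ContinuousLinearMap.mul_apply',
        smul_mul_assoc] at this
      rw [this, hsq]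
      simp
    have : F.wind t - F.wind s = ∫ θ in (0 : ℝ)..(2 * Real.pi),
        ((F.ρ θ : ℂ) * e θ) • ((((t - s) ^ 2 : ℝ) : ℂ) •
            (F.Rt t θ * D * F.Rt s θ * D * F.Rt s θ)) := by
      rw [← intervalIntegral.integral_congr (fun θ _ => hexp θ)]
      rw [intervalIntegral.integral_sub, intervalIntegral.integral_sub, hz, sub_zero]
      rotate_left
      · exact ct
      · exact cs
      · exact ct.sub cs
      · exact c2
      rfl
    rw [this]
    have hb : ∀ θ ∈ Set.uIoc (0 : ℝ) (2 * Real.pi), ‖((F.ρ θ : ℂ) * e θ) •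
        ((((t - s) ^ 2 : ℝ) : ℂ) • (F.Rt t θ * D * F.Rt s θ * D * F.Rt s θ))‖
        ≤ (t - s) ^ 2 * K := by
      intro θ hθ
      rw [Set.uIoc_of_le (by positivity)] at hθ
      have hP' : F.ρ θ ≤ P := hP ⟨θ, ⟨hθ.1.le, hθ.2⟩, rfl⟩
      have hP0 : 0 ≤ P := (F.ρ_nonneg θ).trans hP'
      rw [norm_smul, norm_smul, norm_mul, norm_e, mul_one, Complex.norm_real, Complex.norm_real,
        Real.norm_eq_abs, Real.norm_eq_abs, abs_of_nonneg (F.ρ_nonneg θ),
        abs_of_nonneg (sq_nonneg _)]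
      have hε := F.ε_pos
      have hprod : ‖F.Rt t θ * D * F.Rt s θ * D * F.Rt s θ‖
          ≤ (1 / F.ε) * ‖D‖ * ((1 / F.ε) * ‖D‖ * (1 / F.ε)) := by
        refine (norm_mul_le _ _).trans ?_
        refine (mul_le_mul (norm_mul_le _ _) (F.norm_Rt hs0 hs1 θ) (norm_nonneg _)
          (by positivity)).trans ?_
        have a1 : ‖F.Rt t θ * D * F.Rt s θ‖ ≤ (1 / F.ε) * ‖D‖ * (1 / F.ε) := by
          refine (norm_mul_le _ _).trans (mul_le_mul ((norm_mul_le _ _).trans
            (mul_le_mul_of_nonneg_right (F.norm_Rt ht0 ht1 θ) (norm_nonneg _)))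
            (F.norm_Rt hs0 hs1 θ) (norm_nonneg _) (by positivity))
        calc ‖F.Rt t θ * D * F.Rt s θ‖ * ‖D‖ * (1 / F.ε)
            ≤ (1 / F.ε) * ‖D‖ * (1 / F.ε) * ‖D‖ * (1 / F.ε) := by gcongr
          _ = _ := by ring
      calc F.ρ θ * ((t - s) ^ 2 * ‖F.Rt t θ * D * F.Rt s θ * D * F.Rt s θ‖)
          ≤ P * ((t - s) ^ 2 * ((1 / F.ε) * ‖D‖ * ((1 / F.ε) * ‖D‖ * (1 / F.ε)))) := by gcongr
        _ = _ := by rw [hK]; ring
    refine (intervalIntegral.norm_integral_le_of_norm_le_const hb).trans_eq ?_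
    rw [sub_zero, abs_of_nonneg (by positivity)]
  have hN : ∀ N : ℕ, 0 < N → ‖F.wind 1 - F.wind 0‖ ≤ K * (2 * Real.pi) / N := by
    intro N hN
    have hN' : (0 : ℝ) < N := by exact_mod_cast hN
    have htel : F.wind 1 - F.wind 0
        = ∑ i ∈ Finset.range N, (F.wind (((i + 1 : ℕ) : ℝ) / N) - F.wind ((i : ℝ) / N)) := by
      rw [Finset.sum_range_sub (fun i : ℕ => F.wind ((i : ℝ) / N))]
      simp [hN'.ne']
    rw [htel]
    refine (norm_sum_le _ _).trans ?_
    have hi : ∀ i ∈ Finset.range N,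
        ‖F.wind (((i + 1 : ℕ) : ℝ) / N) - F.wind ((i : ℝ) / N)‖
          ≤ K * (2 * Real.pi) / (N : ℝ) ^ 2 := by
      intro i hi
      have hi' : ((i + 1 : ℕ) : ℝ) ≤ N := by exact_mod_cast Finset.mem_range.1 hi
      have hi0 : (i : ℝ) ≤ N := le_trans (by push_cast; linarith) hi'
      refine (key _ _ (by positivity) ((div_le_one hN').2 hi0) (by positivity)
        ((div_le_one hN').2 hi')).trans_eq ?_
      field_simp
      push_cast; ring
    refine (Finset.sum_le_sum hi).trans_eq ?_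
    rw [Finset.sum_const, Finset.card_range, nsmul_eq_mul]
    field_simp
  refine sub_eq_zero.1 (norm_le_zero_iff.1 (le_of_forall_pos_le_add fun η hη => ?_))
  obtain ⟨N, hN1⟩ := exists_nat_gt (K * (2 * Real.pi) / η)
  have := hN (N + 1) (Nat.succ_pos _)
  rw [zero_add]
  refine this.trans ?_
  rw [div_le_iff₀ (by positivity)]
  rw [div_lt_iff₀ hη] at hN1
  push_cast
  nlinarith

theorem J_one : F.J (fun _ => 1) = 1 := by
  have h : ∫ θ in (0 : ℝ)..(2 * Real.pi), ((1 : ℂ) * (F.ρ θ : ℂ) * e θ) • F.R θ = F.wind 1 := by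
    simp [wind, F.Rt_one]
  rw [J, h, F.wind_one, F.wind_zero]
  have hπ : (2 * Real.pi : ℝ) ≠ 0 := by positivity
  rw [← Complex.coe_smul, smul_smul, ← Complex.ofReal_mul, inv_mul_cancel₀ hπ,
    Complex.ofReal_one, one_smul]

theorem J_linear_add {φ ψ : ℝ → ℂ} (hφ : Continuous φ) (hψ : Continuous ψ) :
    F.J (fun θ => φ θ + ψ θ) = F.J φ + F.J ψ := by
  simp only [J, add_mul, add_smul]
  rw [intervalIntegral.integral_add (F.integrable_J hφ) (F.integrable_J hψ), smul_add]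

theorem J_linear_mul (c : ℂ) (φ : ℝ → ℂ) : F.J (fun θ => c * φ θ) = c • F.J φ := by
  simp only [J, mul_assoc, ← smul_smul c]
  rw [intervalIntegral.integral_smul, smul_comm]

theorem commute_J {X : H →L[ℂ] H} (hX : Commute A X) {φ : ℝ → ℂ} (hφ : Continuous φ) :
    Commute (F.J φ) X := by
  have hR : ∀ θ, Commute (F.R θ) X := fun θ =>
    commute_ringInverse (by simpa [F.At_one] using F.isUnit_Mt zero_le_one le_rfl θ)
      (Commute.sub_left ((Commute.one_left X).smul_left _) hX)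
  have h1 := ((ContinuousLinearMap.mul ℂ (H →L[ℂ] H)).flip X).intervalIntegral_comp_comm
    (F.integrable_J hφ)
  have h2 := (ContinuousLinearMap.mul ℂ (H →L[ℂ] H) X).intervalIntegral_comp_comm
    (F.integrable_J hφ)
  simp only [ContinuousLinearMap.flip_apply, ContinuousLinearMap.mul_apply'] at h1 h2
  simp only [smul_mul_assoc, mul_smul_comm, (hR _).eq] at h1 h2
  unfold Commute SemiconjBy J
  rw [smul_mul_assoc, mul_smul_comm, ← h1, ← h2]

theorem J_pow (n : ℕ) : F.J (fun θ => F.γ θ ^ n) = A ^ n := by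
  induction n with
  | zero => simpa using F.J_one
  | succ n ih =>
    have h0 : ∫ θ in (0 : ℝ)..(2 * Real.pi), F.γ θ ^ n * (F.ρ θ : ℂ) * e θ = 0 := by
      have hd : ∀ θ, HasDerivAt (fun s => -Complex.I * (F.γ s ^ (n + 1) / ((n : ℂ) + 1)))
          (F.γ θ ^ n * (F.ρ θ : ℂ) * e θ) θ := by
        intro θ
        refine ((((F.γ_deriv θ).pow (n + 1)).div_const ((n : ℂ) + 1)).const_mul
          (-Complex.I)).congr_deriv ?_
        have : ((n : ℂ) + 1) ≠ 0 := Nat.cast_add_one_ne_zero n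
        field_simp
        push_cast
        linear_combination
          (-(F.γ θ ^ n * (F.ρ θ : ℂ) * e θ * ((n : ℂ) + 1))) * Complex.I_sq
      rw [intervalIntegral.integral_eq_sub_of_hasDerivAt (fun θ _ => hd θ)
        ((F.continuous_weight (F.continuous_γ.pow n)).intervalIntegrable _ _)]
      simp [F.γ_per]
    have hsplit : ∀ θ, (F.γ θ ^ (n + 1) * (F.ρ θ : ℂ) * e θ) • F.R θ
        = (F.γ θ ^ n * (F.ρ θ : ℂ) * e θ) • (1 : H →L[ℂ] H)
          + A * ((F.γ θ ^ n * (F.ρ θ : ℂ) * e θ) • F.R θ) := by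
      intro θ
      conv_rhs => rw [← F.M_mul_R θ]
      rw [mul_smul_comm, sub_mul, smul_sub, sub_add_cancel, smul_mul_assoc, one_mul, smul_smul]
      congr 1; ring
    have hA := (ContinuousLinearMap.mul ℂ (H →L[ℂ] H) A).intervalIntegral_comp_comm
      (F.integrable_J (φ := fun θ => F.γ θ ^ n) (F.continuous_γ.pow n))
    simp only [ContinuousLinearMap.mul_apply'] at hA
    have i1 : IntervalIntegrable (fun θ => (F.γ θ ^ n * (F.ρ θ : ℂ) * e θ) • (1 : H →L[ℂ] H))
        volume 0 (2 * Real.pi) :=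
      ((F.continuous_weight (F.continuous_γ.pow n)).smul continuous_const).intervalIntegrable _ _
    have i2 : IntervalIntegrable (fun θ => A * ((F.γ θ ^ n * (F.ρ θ : ℂ) * e θ) • F.R θ))
        volume 0 (2 * Real.pi) :=
      (continuous_const.mul
        ((F.continuous_weight (F.continuous_γ.pow n)).smul F.continuous_R)).intervalIntegrable _ _
    unfold J at ih ⊢
    simp only [hsplit]
    rw [intervalIntegral.integral_add i1 i2, intervalIntegral.integral_smul_const, h0, zero_smul,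
      zero_add, hA, ← mul_smul_comm, ih, ← pow_succ']

theorem J_poly (P : Polynomial ℂ) :
    F.J (fun θ => P.eval (F.γ θ)) = Polynomial.aeval A P := by
  induction P using Polynomial.induction_on' with
  | add p q hp hq =>
    simp only [Polynomial.eval_add, map_add]
    rw [F.J_linear_add (φ := fun θ => p.eval (F.γ θ)) (ψ := fun θ => q.eval (F.γ θ))
      (p.continuous.comp F.continuous_γ) (q.continuous.comp F.continuous_γ)]
    exact congrArg₂ (· + ·) hp hq
  | monomial n a =>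
    simp only [Polynomial.eval_monomial, Polynomial.aeval_monomial, F.J_linear_mul, F.J_pow,
      Algebra.algebraMap_eq_smul_one, smul_mul_assoc, one_mul]

theorem norm_J_le : ∃ M : ℝ, 0 ≤ M ∧
    ∀ φ : ℝ → ℂ, (∀ θ, ‖φ θ‖ ≤ 1) → ‖F.J φ‖ ≤ M := by
  obtain ⟨P, hP⟩ := isCompact_Icc.bddAbove_image
    (F.ρ_cont.continuousOn (s := Set.Icc (0 : ℝ) (2 * Real.pi)))
  have hε := F.ε_pos
  have hP0 : 0 ≤ P :=
    (F.ρ_nonneg 0).trans (hP ⟨0, ⟨le_rfl, by positivity⟩, rfl⟩)
  refine ⟨P / F.ε, by positivity, fun φ hφ => ?_⟩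
  have hb : ∀ θ ∈ Set.uIoc (0 : ℝ) (2 * Real.pi),
      ‖(φ θ * (F.ρ θ : ℂ) * e θ) • F.R θ‖ ≤ P / F.ε := by
    intro θ hθ
    rw [Set.uIoc_of_le (by positivity)] at hθ
    rw [norm_smul, norm_mul, norm_mul, norm_e, mul_one, Complex.norm_real, Real.norm_eq_abs,
      abs_of_nonneg (F.ρ_nonneg θ)]
    calc ‖φ θ‖ * F.ρ θ * ‖F.R θ‖ ≤ 1 * P * (1 / F.ε) := by
          refine mul_le_mul ?_ (F.norm_R θ) (norm_nonneg _) (by positivity)
          exact mul_le_mul (hφ θ) (hP ⟨θ, ⟨hθ.1.le, hθ.2⟩, rfl⟩) (F.ρ_nonneg θ) zero_le_one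
      _ = P / F.ε := by ring
  have h := intervalIntegral.norm_integral_le_of_norm_le_const hb
  rw [sub_zero, abs_of_nonneg (by positivity)] at h
  rw [J, norm_smul, Real.norm_eq_abs, abs_of_nonneg (by positivity)]
  refine (mul_le_mul_of_nonneg_left h (by positivity)).trans_eq ?_
  field_simp

/-- The positive double layer form. -/
noncomputable def B (θ : ℝ) (u w : H) : ℂ :=
  inner ℂ w (e θ • F.R θ u) + inner ℂ (e θ • F.R θ w) u

theorem B_nonneg (θ : ℝ) (v : H) : 0 ≤ (F.B θ v v).re := by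
  set w := F.R θ v with hw
  have hv : v = F.γ θ • w - A w := by
    have := congrArg (fun T : H →L[ℂ] H => T v) (F.M_mul_R θ)
    simpa [hw] using this.symm
  have h := F.supp θ w
  have h1 : (inner ℂ (e θ • w) v).re = (conj (e θ) * inner ℂ w (F.γ θ • w - A w)).re := by
    rw [inner_smul_left, ← hv]
  have h2 : (inner ℂ v (e θ • w)).re = (inner ℂ (e θ • w) v).re := by
    rw [← inner_conj_symm, Complex.conj_re]
  simp only [B, ← hw, Complex.add_re, h2, h1]
  nlinarith [mul_nonneg F.ε_pos.le (sq_nonneg ‖w‖)]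

theorem B_symm (θ : ℝ) (u w : H) : F.B θ w u = conj (F.B θ u w) := by
  simp only [B, map_add, inner_conj_symm]; ring

theorem B_amgm (θ : ℝ) (u w : H) {t : ℝ} (ht : 0 < t) :
    2 * (F.B θ u w).re ≤ t * (F.B θ u u).re + (F.B θ w w).re / t := by
  have h := F.B_nonneg θ ((t : ℂ) • u - w)
  have heq : F.B θ ((t : ℂ) • u - w) ((t : ℂ) • u - w)
      = (t : ℂ) * ((t : ℂ) * F.B θ u u) - (t : ℂ) * F.B θ w u
        - (t : ℂ) * F.B θ u w + F.B θ w w := by
    simp only [B, map_sub, map_smul, smul_sub, inner_sub_left, inner_sub_right, inner_smul_left,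
      inner_smul_right, Complex.conj_ofReal]
    ring
  rw [heq, F.B_symm θ u w] at h
  simp only [Complex.add_re, Complex.sub_re, Complex.re_ofReal_mul, Complex.conj_re] at h
  have key : 2 * (F.B θ u w).re * t ≤ t * (F.B θ u u).re * t + (F.B θ w w).re := by nlinarith
  calc 2 * (F.B θ u w).re = (2 * (F.B θ u w).re * t) / t := by field_simp
    _ ≤ (t * (F.B θ u u).re * t + (F.B θ w w).re) / t :=
        div_le_div_of_nonneg_right key ht.le
    _ = _ := by field_simp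

/-- The test inequality: `|a| ≤ 1`, `|f| ≤ 1`. -/
theorem B_test (θ : ℝ) (x y w : H) (a f : ℂ) (ha : ‖a‖ ≤ 1) (hf : ‖f‖ ≤ 1) {t : ℝ} (ht : 0 < t) :
    2 * ((a * f * F.B θ x w).re - (a * F.B θ y w).re) + 2 * t * (f * F.B θ x y).re
      ≤ t * ((F.B θ x x).re + (F.B θ y y).re) + (F.B θ w w).re / t := by
  have h := F.B_amgm θ (a • (f • x - y)) w ht
  have hu := F.B_nonneg θ (f • x - y)
  have e1 : F.B θ (a • (f • x - y)) w = a * f * F.B θ x w - a * F.B θ y w := by
    simp only [B, map_sub, map_smul, smul_sub, smul_smul, inner_sub_left, inner_sub_right,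
      inner_smul_left, inner_smul_right]
    ring
  have e2 : F.B θ (a • (f • x - y)) (a • (f • x - y))
      = ((‖a‖ ^ 2 : ℝ) : ℂ) * F.B θ (f • x - y) (f • x - y) := by
    have hn : conj a * a = ((‖a‖ ^ 2 : ℝ) : ℂ) := by
      rw [Complex.conj_mul', Complex.ofReal_pow]
    rw [← hn]
    simp only [B, map_smul, inner_smul_left, inner_smul_right]
    ring
  have e3 : F.B θ (f • x - y) (f • x - y) = ((‖f‖ ^ 2 : ℝ) : ℂ) * F.B θ x x
      - f * F.B θ x y - conj (f * F.B θ x y) + F.B θ y y := by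
    have hn : conj f * f = ((‖f‖ ^ 2 : ℝ) : ℂ) := by
      rw [Complex.conj_mul', Complex.ofReal_pow]
    rw [map_mul, ← F.B_symm θ x y, ← hn]
    simp only [B, map_sub, map_smul, smul_sub, inner_sub_left, inner_sub_right,
      inner_smul_left, inner_smul_right]
    ring
  rw [e1, e2, Complex.sub_re, Complex.re_ofReal_mul] at h
  have h3 : (F.B θ (f • x - y) (f • x - y)).re
      ≤ (F.B θ x x).re + (F.B θ y y).re - 2 * (f * F.B θ x y).re := by
    rw [e3]
    simp only [Complex.add_re, Complex.sub_re, Complex.re_ofReal_mul, Complex.conj_re]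
    nlinarith [mul_le_mul_of_nonneg_right (pow_le_one₀ (n := 2) (norm_nonneg f) hf)
      (F.B_nonneg θ x)]
  have h4 : ‖a‖ ^ 2 * (F.B θ (f • x - y) (f • x - y)).re
      ≤ (F.B θ x x).re + (F.B θ y y).re - 2 * (f * F.B θ x y).re :=
    le_trans (mul_le_of_le_one_left hu (pow_le_one₀ (norm_nonneg a) ha)) h3
  nlinarith [mul_le_mul_of_nonneg_left h4 ht.le]

theorem continuous_B (u w : H) : Continuous fun θ => F.B θ u w := by
  have h : ∀ u, Continuous fun θ => e θ • F.R θ u := fun u =>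
    continuous_e.smul (F.continuous_R.clm_apply continuous_const)
  exact (continuous_const.inner (h u)).add ((h w).inner continuous_const)

theorem integral_B {φ : ℝ → ℂ} (hφ : Continuous φ) (u w : H) :
    ((2 * Real.pi)⁻¹ : ℝ) • ∫ θ in (0 : ℝ)..(2 * Real.pi), φ θ * (F.ρ θ : ℂ) * F.B θ u w
      = inner ℂ w (F.J φ u) + inner ℂ (F.J (fun θ => conj (φ θ)) w) u := by
  have hc : Continuous fun θ => conj (φ θ) := Complex.continuous_conj.comp hφ
  have key : ∀ (ψ : ℝ → ℂ), Continuous ψ → ∀ a b : H, inner ℂ a (F.J ψ b)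
      = ((2 * Real.pi)⁻¹ : ℝ) • ∫ θ in (0 : ℝ)..(2 * Real.pi),
          ψ θ * (F.ρ θ : ℂ) * inner ℂ a (e θ • F.R θ b) := by
    intro ψ hψ a b
    have := ((innerSL ℂ a).comp (ContinuousLinearMap.apply ℂ H b)).intervalIntegral_comp_comm
      (F.integrable_J hψ)
    simp only [ContinuousLinearMap.coe_comp', Function.comp_apply,
      ContinuousLinearMap.apply_apply, innerSL_apply_apply, ContinuousLinearMap.smul_apply,
      inner_smul_right] at this
    simp only [J, ContinuousLinearMap.smul_apply, inner_smul_right_eq_smul, ← this,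
      inner_smul_right]
    congr 1
    refine intervalIntegral.integral_congr fun θ _ => ?_
    ring
  rw [← inner_conj_symm (F.J _ w) u, key φ hφ, key _ hc]
  have h1 : Continuous fun θ => φ θ * (F.ρ θ : ℂ) * inner ℂ w (e θ • F.R θ u) :=
    (hφ.mul (Complex.continuous_ofReal.comp F.ρ_cont)).mul
      (continuous_const.inner (continuous_e.smul (F.continuous_R.clm_apply continuous_const)))
  have h2 : Continuous fun θ => φ θ * (F.ρ θ : ℂ) * inner ℂ (e θ • F.R θ w) u :=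
    (hφ.mul (Complex.continuous_ofReal.comp F.ρ_cont)).mul
      ((continuous_e.smul (F.continuous_R.clm_apply continuous_const)).inner continuous_const)
  simp only [B, mul_add]
  rw [intervalIntegral.integral_add (h1.intervalIntegrable _ _) (h2.intervalIntegrable _ _),
    smul_add]
  congr 1
  rw [show ∀ (r : ℝ) (I : ℂ), conj (r • I) = r • conj I from fun r I => by
      simp [Complex.real_smul, Complex.conj_ofReal]]
  congr 1
  rw [← intervalIntegral.intervalIntegral_conj]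
  refine intervalIntegral.integral_congr fun θ _ => ?_
  simp only [map_mul, Complex.conj_conj, Complex.conj_ofReal, inner_conj_symm]

theorem integral_B_re {φ : ℝ → ℂ} (hφ : Continuous φ) (u w : H) :
    (2 * Real.pi)⁻¹ * ∫ θ in (0 : ℝ)..(2 * Real.pi), F.ρ θ * (φ θ * F.B θ u w).re
      = (inner ℂ w (F.J φ u)).re + (inner ℂ (F.J (fun θ => conj (φ θ)) w) u).re := by
  have h := congrArg Complex.re (F.integral_B hφ u w)
  rw [Complex.smul_re, Complex.add_re, smul_eq_mul] at h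
  rw [← h]
  have hc : Continuous fun θ => φ θ * (F.ρ θ : ℂ) * F.B θ u w :=
    (hφ.mul (Complex.continuous_ofReal.comp F.ρ_cont)).mul (F.continuous_B u w)
  have hre := Complex.reCLM.intervalIntegral_comp_comm
    (hc.intervalIntegrable (μ := volume) 0 (2 * Real.pi))
  simp only [Complex.reCLM_apply] at hre
  rw [← hre]
  congr 1
  refine intervalIntegral.integral_congr fun θ _ => ?_
  rw [mul_assoc, mul_left_comm, Complex.re_ofReal_mul]

theorem integral_B_one (v : H) :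
    (2 * Real.pi)⁻¹ * ∫ θ in (0 : ℝ)..(2 * Real.pi), F.ρ θ * (F.B θ v v).re
      = 2 * ‖v‖ ^ 2 := by
  have h := F.integral_B_re (φ := fun _ => 1) continuous_const v v
  simp only [one_mul, map_one, F.J_one, ContinuousLinearMap.one_apply,
    inner_self_eq_norm_sq_to_K] at h
  rw [h]
  simp [← Complex.ofReal_pow]
  ring

end Frame

end Vale.Agent.P123
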