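import Mathlib
import Vale.Agent.P123.Core

/-!
The constant `2` for a fixed contour: if `|f| ≤ 1` on the contour then `‖f(A)‖ ≤ 2`.
-/

open scoped ComplexConjugate
open Complex MeasureTheory

namespace Vale.Agent.P123

variable {H : Type*} [NormedAddCommGroup H] [InnerProductSpace ℂ H] [CompleteSpace H]

/-- A real recursion `R (n+1) ≤ c * R n + K` that is bounded below cannot start too low. -/
theorem recursion_bound {R : ℕ → ℝ} {c K M : ℝ} (hc : 1 < c)
    (hrec : ∀ n, 1 ≤ n → R (n + 1) ≤ c * R n + K) (hb : ∀ n, 1 ≤ n → -M ≤ R n) :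
    0 ≤ R 1 + K / (c - 1) := by
  by_contra h
  push Not at h
  have hc' : c - 1 ≠ 0 := by linarith
  have key : ∀ n, R (n + 1) + K / (c - 1) ≤ c ^ n * (R 1 + K / (c - 1)) := by
    intro n
    induction n with
    | zero => simp
    | succ n ih =>
      have h1 := hrec (n + 1) (by omega)
      have h2 := mul_le_mul_of_nonneg_left ih (by linarith : (0:ℝ) ≤ c)
      have h3 : K + K / (c - 1) = c * (K / (c - 1)) := by field_simp; ring
      rw [pow_succ']
      nlinarith
  obtain ⟨n, hn⟩ := pow_unbounded_of_one_lt ((M - K / (c - 1)) / -(R 1 + K / (c - 1))) hc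
  rw [div_lt_iff₀ (by linarith)] at hn
  have h4 := key n
  have h5 := hb (n + 1) (by omega)
  nlinarith

/-- A unit vector almost attaining the norm. -/
theorem exists_unit_near (T : H →L[ℂ] H) {r : ℝ} (hr0 : 0 ≤ r) (hr : r < ‖T‖) :
    ∃ x : H, ‖x‖ = 1 ∧ r < ‖T x‖ := by
  obtain ⟨v, hv⟩ := T.exists_mul_lt_of_lt_opNorm hr0 hr
  have hv0 : v ≠ 0 := by
    intro h
    simp [h] at hv
  refine ⟨((‖v‖⁻¹ : ℝ) : ℂ) • v, ?_, ?_⟩
  · rw [norm_smul, Complex.norm_real, norm_inv, norm_norm]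
    exact inv_mul_cancel₀ (norm_ne_zero_iff.2 hv0)
  · rw [map_smul, norm_smul, Complex.norm_real, norm_inv, norm_norm, ← div_eq_inv_mul,
      lt_div_iff₀ (norm_pos_iff.2 hv0)]
    exact hv

variable {A : H →L[ℂ] H} (F : Frame A)

namespace Frame

theorem key_step {f : ℝ → ℂ} (hfc : Continuous f) (hf : ∀ θ, ‖f θ‖ ≤ 1)
    (x y w : H) (hx : ‖x‖ = 1) (hy : ‖y‖ = 1) (n : ℕ) {t : ℝ} (ht : 0 < t) :
    (inner ℂ w (F.J (fun θ => f θ ^ (n + 1)) x)).re
      + (inner ℂ (F.J (fun θ => conj (f θ ^ (n + 1))) w) x).re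
      - ((inner ℂ w (F.J (fun θ => f θ ^ n) y)).re
      + (inner ℂ (F.J (fun θ => conj (f θ ^ n)) w) y).re)
      ≤ t * (2 - ((inner ℂ y (F.J f x)).re + (inner ℂ (F.J (fun θ => conj (f θ)) y) x).re))
        + ‖w‖ ^ 2 / t := by
  set I : (ℝ → ℝ) → ℝ :=
    fun g => (2 * Real.pi)⁻¹ * ∫ θ in (0 : ℝ)..(2 * Real.pi), F.ρ θ * g θ with hI
  have hρ := F.ρ_cont
  have c1 : Continuous fun θ => (f θ ^ (n + 1) * F.B θ x w).re :=
    Complex.continuous_re.comp ((hfc.pow (n + 1)).mul (F.continuous_B x w))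
  have c2 : Continuous fun θ => (f θ ^ n * F.B θ y w).re :=
    Complex.continuous_re.comp ((hfc.pow n).mul (F.continuous_B y w))
  have c3 : Continuous fun θ => (f θ * F.B θ x y).re :=
    Complex.continuous_re.comp (hfc.mul (F.continuous_B x y))
  have c4 : ∀ v, Continuous fun θ => (F.B θ v v).re := fun v =>
    Complex.continuous_re.comp (F.continuous_B v v)
  have hlin : ∀ (a b : ℝ) (g k : ℝ → ℝ), Continuous g → Continuous k →
      I (fun θ => a * g θ + b * k θ) = a * I g + b * I k := by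
    intro a b g k hg hk
    simp only [hI, mul_add, mul_left_comm (F.ρ _)]
    rw [intervalIntegral.integral_add
      (Continuous.intervalIntegrable (by fun_prop) _ _)
      (Continuous.intervalIntegrable (by fun_prop) _ _),
      intervalIntegral.integral_const_mul, intervalIntegral.integral_const_mul]
    ring
  have hmono : I (fun θ => 2 * (1 * (f θ ^ (n + 1) * F.B θ x w).re
        + -1 * (f θ ^ n * F.B θ y w).re) + (2 * t) * (f θ * F.B θ x y).re)
      ≤ I (fun θ => t * (1 * (F.B θ x x).re + 1 * (F.B θ y y).re)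
        + t⁻¹ * (F.B θ w w).re) := by
    simp only [hI]
    refine mul_le_mul_of_nonneg_left ?_ (by positivity)
    refine intervalIntegral.integral_mono_on (by positivity)
      (Continuous.intervalIntegrable (hρ.mul ((continuous_const.mul ((continuous_const.mul c1).add
        (continuous_const.mul c2))).add (continuous_const.mul c3))) _ _)
      (Continuous.intervalIntegrable (hρ.mul ((continuous_const.mul ((continuous_const.mul
        (c4 x)).add (continuous_const.mul (c4 y)))).add (continuous_const.mul (c4 w)))) _ _)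
      fun θ _ => mul_le_mul_of_nonneg_left ?_ (F.ρ_nonneg θ)
    have h := F.B_test θ x y w (f θ ^ n) (f θ)
      (by rw [norm_pow]; exact pow_le_one₀ (norm_nonneg _) (hf θ)) (hf θ) ht
    rw [← pow_succ, div_eq_inv_mul] at h
    linarith
  rw [hlin 2 (2 * t) (fun θ => 1 * (f θ ^ (n + 1) * F.B θ x w).re
      + -1 * (f θ ^ n * F.B θ y w).re) _ ((continuous_const.mul c1).add (continuous_const.mul c2)) c3,
    hlin 1 (-1) _ _ c1 c2,
    hlin t t⁻¹ (fun θ => 1 * (F.B θ x x).re + 1 * (F.B θ y y).re) _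
      ((continuous_const.mul (c4 x)).add (continuous_const.mul (c4 y))) (c4 w),
    hlin 1 1 _ _ (c4 x) (c4 y)] at hmono
  have e1 := F.integral_B_re (φ := fun θ => f θ ^ (n + 1)) (hfc.pow (n + 1)) x w
  have e2 := F.integral_B_re (φ := fun θ => f θ ^ n) (hfc.pow n) y w
  have e3 := F.integral_B_re hfc x y
  simp only [hI] at hmono
  rw [e1, e2, e3, F.integral_B_one, F.integral_B_one, F.integral_B_one, hx, hy] at hmono
  have : t⁻¹ * (2 * ‖w‖ ^ 2) = 2 * (‖w‖ ^ 2 / t) := by ring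
  linarith

/-- The sequence `Re ⟪x, G(fⁿ) Tⁿ x⟫`. -/
noncomputable def Rseq (f : ℝ → ℂ) (T : H →L[ℂ] H) (x : H) (n : ℕ) : ℝ :=
  (inner ℂ x ((F.J (fun θ => conj (f θ ^ n)) * T ^ n) x)).re

variable {f : ℝ → ℂ} {T : H →L[ℂ] H} {x y : H} {c M : ℝ}

theorem offdiag_eq (hf1 : F.J f = T) (hc : c ≠ 0) (hy : y = ((c : ℂ))⁻¹ • T x) (hy1 : ‖y‖ = 1) :
    (inner ℂ y (F.J f x)).re + (inner ℂ (F.J (fun θ => conj (f θ)) y) x).re
      = c + F.Rseq f T x 1 / c := by
  have hTx : T x = (c : ℂ) • y := by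
    rw [hy, smul_inv_smul₀]; exact_mod_cast hc
  have e2 : F.J (fun θ => conj (f θ)) y
      = ((c⁻¹ : ℝ) : ℂ) • (F.J (fun θ => conj (f θ ^ 1)) * T ^ 1) x := by
    simp only [pow_one, ContinuousLinearMap.mul_apply, hy, map_smul, Complex.ofReal_inv]
  have a1 : inner ℂ y y = (1 : ℂ) := by
    rw [inner_self_eq_norm_sq_to_K, hy1]; simp
  rw [hf1, hTx, inner_smul_right, a1, mul_one, Complex.ofReal_re, e2, inner_smul_left,
    Complex.conj_ofReal, Complex.re_ofReal_mul, ← inner_conj_symm, Complex.conj_re, Rseq]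
  ring

theorem step_ineq (hfc : Continuous f) (hf : ∀ θ, ‖f θ‖ ≤ 1)
    (hJ : ∀ n, F.J (fun θ => f θ ^ n) = T ^ n)
    (hGT : ∀ n, Commute (F.J (fun θ => conj (f θ ^ n))) T)
    (hGTn : ∀ n, ‖F.J (fun θ => conj (f θ ^ n)) * T ^ n‖ ≤ M)
    (hx : ‖x‖ = 1) (hc : 1 < c) (hy : y = ((c : ℂ))⁻¹ • T x) (hy1 : ‖y‖ = 1) (n : ℕ) :
    F.Rseq f T x (n + 1) ≤ c * F.Rseq f T x n
      + (c * ((2 - c - F.Rseq f T x 1 / c) / (c - 1))
        + ‖ContinuousLinearMap.adjoint T y - (c : ℂ) • x‖ * M) := by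
  have hc0 : c ≠ 0 := by linarith
  have hcc : (c : ℂ) ≠ 0 := by exact_mod_cast hc0
  set err : H := ContinuousLinearMap.adjoint T y - (c : ℂ) • x with herr
  set w : H := (T ^ n) y with hw
  have hTx : T x = (c : ℂ) • y := by rw [hy, smul_inv_smul₀ hcc]
  have hB : (T ^ (n + 1)) x = (c : ℂ) • w := by
    rw [pow_succ, ContinuousLinearMap.mul_apply, hTx, map_smul]
  have h := F.key_step hfc hf x y w hx hy1 n (t := 1 / (c - 1)) (one_div_pos.2 (by linarith))
  have hf1 : F.J f = T := by simpa using hJ 1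
  rw [F.offdiag_eq hf1 hc0 hy hy1] at h
  have a0 : inner ℂ w w = ((‖w‖ ^ 2 : ℝ) : ℂ) := by
    rw [inner_self_eq_norm_sq_to_K]; norm_cast
  have a1 : (inner ℂ w (F.J (fun θ => f θ ^ (n + 1)) x)).re = c * ‖w‖ ^ 2 := by
    rw [hJ, hB, inner_smul_right, a0, Complex.re_ofReal_mul, Complex.ofReal_re]
  have a2 : (inner ℂ w (F.J (fun θ => f θ ^ n) y)).re = ‖w‖ ^ 2 := by
    rw [hJ, ← hw, a0, Complex.ofReal_re]
  have e3 : (inner ℂ (F.J (fun θ => conj (f θ ^ (n + 1))) w) x).re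
      = F.Rseq f T x (n + 1) / c := by
    have e : F.J (fun θ => conj (f θ ^ (n + 1))) w
        = ((c⁻¹ : ℝ) : ℂ) • (F.J (fun θ => conj (f θ ^ (n + 1))) * T ^ (n + 1)) x := by
      rw [ContinuousLinearMap.mul_apply, hB, map_smul, Complex.ofReal_inv, inv_smul_smul₀ hcc]
    rw [e, inner_smul_left, Complex.conj_ofReal, Complex.re_ofReal_mul, ← inner_conj_symm,
      Complex.conj_re, Rseq]
    ring
  have e4 : (inner ℂ (F.J (fun θ => conj (f θ ^ n)) w) y).re
      ≤ F.Rseq f T x n + ‖err‖ * M / c := by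
    set S : H →L[ℂ] H := F.J (fun θ => conj (f θ ^ n)) * T ^ n with hS
    have hST : Commute S T := (hGT n).mul_left (Commute.pow_self T n)
    have hSy : F.J (fun θ => conj (f θ ^ n)) w = S y := rfl
    have hSe : S y = ((c⁻¹ : ℝ) : ℂ) • T (S x) := by
      rw [hy, map_smul, Complex.ofReal_inv]
      congr 1
      exact congrArg (fun Q : H →L[ℂ] H => Q x) hST.eq
    have hadj : ContinuousLinearMap.adjoint T y = (c : ℂ) • x + err := by
      rw [herr]; abel
    have hre : (inner ℂ (F.J (fun θ => conj (f θ ^ n)) w) y).re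
        = F.Rseq f T x n + (inner ℂ err (S x)).re / c := by
      rw [← inner_conj_symm, Complex.conj_re, hSy, hSe, inner_smul_right,
        ← ContinuousLinearMap.adjoint_inner_left, Complex.re_ofReal_mul, hadj, inner_add_left,
        inner_smul_left, Complex.conj_ofReal, Complex.add_re, Complex.re_ofReal_mul, Rseq, ← hS]
      field_simp
    rw [hre]
    refine add_le_add le_rfl (div_le_div_of_nonneg_right ?_ (by linarith))
    refine (Complex.re_le_norm _).trans ((norm_inner_le_norm _ _).trans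
      (mul_le_mul_of_nonneg_left ?_ (norm_nonneg _)))
    exact (S.le_opNorm x).trans (by rw [hx, mul_one]; exact hGTn n)
  rw [a1, a2, e3] at h
  have hm : ‖w‖ ^ 2 / (1 / (c - 1)) = (c - 1) * ‖w‖ ^ 2 := by field_simp
  rw [hm] at h
  have h1 : F.Rseq f T x (n + 1) / c
      ≤ 1 / (c - 1) * (2 - (c + F.Rseq f T x 1 / c)) + F.Rseq f T x n + ‖err‖ * M / c := by
    linarith
  rw [div_le_iff₀ (by linarith)] at h1
  refine h1.trans_eq ?_
  field_simp
  ring

/-- An almost extremal vector. -/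
theorem exists_near (T : H →L[ℂ] H) (hT : 2 < ‖T‖) {δ : ℝ} (hδ : 0 < δ) :
    ∃ (x y : H) (c : ℝ), ‖x‖ = 1 ∧ ‖y‖ = 1 ∧ (2 + ‖T‖) / 2 < c ∧ c ≤ ‖T‖ ∧
      y = ((c : ℂ))⁻¹ • T x ∧ ‖ContinuousLinearMap.adjoint T y - (c : ℂ) • x‖ ≤ δ := by
  have hr : max ((2 + ‖T‖) / 2) (Real.sqrt (‖T‖ ^ 2 - δ ^ 2)) < ‖T‖ := by
    refine max_lt (by linarith) ?_
    rw [Real.sqrt_lt' (by linarith)]
    nlinarith
  obtain ⟨x, hx, hxr⟩ := exists_unit_near T (le_max_of_le_right (Real.sqrt_nonneg _)) hr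
  set c : ℝ := ‖T x‖ with hc
  have hcc₀ : (2 + ‖T‖) / 2 < c := (le_max_left _ _).trans_lt hxr
  have hcpos : 0 < c := by linarith
  have hcC : c ≤ ‖T‖ := by simpa [hx] using T.le_opNorm x
  have hc0' : (c : ℂ) ≠ 0 := by exact_mod_cast hcpos.ne'
  set y : H := ((c : ℂ))⁻¹ • T x with hy
  have hy1 : ‖y‖ = 1 := by
    rw [hy, norm_smul, norm_inv, Complex.norm_real, Real.norm_eq_abs, abs_of_pos hcpos,
      ← hc, inv_mul_cancel₀ hcpos.ne']
  refine ⟨x, y, c, hx, hy1, hcc₀, hcC, rfl, ?_⟩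
  have hTx : T x = (c : ℂ) • y := by rw [hy, smul_inv_smul₀ hc0']
  have h1 : inner ℂ (ContinuousLinearMap.adjoint T y) x = (c : ℂ) := by
    rw [ContinuousLinearMap.adjoint_inner_left, hTx, inner_smul_right,
      inner_self_eq_norm_sq_to_K, hy1]; simp
  have h2 : ‖ContinuousLinearMap.adjoint T y‖ ≤ ‖T‖ := by
    refine ((ContinuousLinearMap.adjoint T).le_opNorm y).trans ?_
    rw [hy1, mul_one, LinearIsometryEquiv.norm_map]
  have hcη : ‖T‖ ^ 2 - δ ^ 2 ≤ c ^ 2 := by
    have := (le_max_right _ _).trans_lt hxr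
    rw [Real.sqrt_lt' hcpos] at this
    linarith
  have h3 : ‖ContinuousLinearMap.adjoint T y - (c : ℂ) • x‖ ^ 2 ≤ δ ^ 2 := by
    rw [@norm_sub_sq ℂ, inner_smul_right, h1, norm_smul, hx, Complex.norm_real,
      Real.norm_eq_abs, abs_of_pos hcpos]
    have := pow_le_pow_left₀ (norm_nonneg _) h2 2
    simp only [RCLike.re_to_complex, Complex.re_ofReal_mul, Complex.ofReal_re, mul_one]
    nlinarith
  exact (pow_le_pow_iff_left₀ (norm_nonneg _) hδ.le two_ne_zero).1 h3

/-- The bound `2` for one contour. -/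
theorem norm_aeval_le_two (p : Polynomial ℂ) (hp : ∀ θ, ‖p.eval (F.γ θ)‖ ≤ 1) :
    ‖Polynomial.aeval A p‖ ≤ 2 := by
  set T : H →L[ℂ] H := Polynomial.aeval A p with hT
  by_contra hC
  push Not at hC
  set f : ℝ → ℂ := fun θ => p.eval (F.γ θ) with hf
  have hfc : Continuous f := p.continuous.comp F.continuous_γ
  have hJpow : ∀ n, F.J (fun θ => f θ ^ n) = T ^ n := by
    intro n
    have := F.J_poly (p ^ n)
    simpa [hT, hf, Polynomial.eval_pow] using this
  obtain ⟨M, hM0, hM⟩ := F.norm_J_le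
  have hTn : ∀ n, ‖T ^ n‖ ≤ M := fun n => by
    rw [← hJpow]; exact hM _ fun θ => by rw [norm_pow]; exact pow_le_one₀ (norm_nonneg _) (hp θ)
  have hGn : ∀ n : ℕ, ‖F.J (fun θ => conj (f θ ^ n))‖ ≤ M := fun n => hM _ fun θ => by
    rw [RCLike.norm_conj, norm_pow]; exact pow_le_one₀ (norm_nonneg _) (hp θ)
  have hGTn : ∀ n : ℕ, ‖F.J (fun θ => conj (f θ ^ n)) * T ^ n‖ ≤ M * M := fun n =>
    (norm_mul_le _ _).trans (mul_le_mul (hGn n) (hTn n) (norm_nonneg _) hM0)
  have hAT : Commute A T := by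
    have := (Commute.all Polynomial.X p).map (Polynomial.aeval (R := ℂ) A)
    rwa [Polynomial.aeval_X] at this
  have hGT : ∀ n : ℕ, Commute (F.J (fun θ => conj (f θ ^ n))) T := fun n =>
    F.commute_J hAT (Complex.continuous_conj.comp (hfc.pow n))
  set k : ℝ := ((2 + ‖T‖) / 2) ^ 2 - 2 * ((2 + ‖T‖) / 2) with hk
  have hk0 : 0 < k := by rw [hk]; nlinarith
  obtain ⟨x, y, c, hx, hy1, hcl, hcC, hy, herr⟩ :=
    exists_near T hC (δ := k / (‖T‖ * (M * M + 1))) (div_pos hk0 (by positivity))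
  have hc2 : 2 < c := by linarith
  have hf1 : F.J f = T := by simpa using hJpow 1
  have hRb : ∀ n, -(M * M) ≤ F.Rseq f T x n := by
    intro n
    refine neg_le_of_abs_le ((Complex.abs_re_le_norm _).trans ((norm_inner_le_norm _ _).trans ?_))
    rw [hx, one_mul]
    exact (ContinuousLinearMap.le_opNorm _ x).trans (by rw [hx, mul_one]; exact hGTn n)
  have hD0 : c + F.Rseq f T x 1 / c ≤ 2 := by
    have h := F.key_step hfc hp x y 0 hx hy1 0 one_pos
    simp only [map_zero, inner_zero_left, Complex.zero_re, add_zero, sub_self, norm_zero] at h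
    rw [← F.offdiag_eq hf1 (by linarith) hy hy1]
    linarith
  have hfin := recursion_bound (R := F.Rseq f T x) (by linarith : 1 < c)
    (fun n _ => F.step_ineq hfc hp hJpow hGT hGTn hx (by linarith) hy hy1 n) fun n _ => hRb n
  generalize ‖ContinuousLinearMap.adjoint T y - (c : ℂ) • x‖ = er at herr hfin
  generalize F.Rseq f T x 1 = r at hD0 hfin
  have hr : r < 0 := by
    have : r / c < 0 := by linarith
    by_contra hr
    exact absurd this (not_lt.2 (div_nonneg (not_lt.1 hr) (by linarith)))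
  have hsmall : er * (M * M) * (c - 1) < k := by
    have hpos : 0 < ‖T‖ * (M * M + 1) := by positivity
    rw [le_div_iff₀ hpos] at herr
    have hMM : 0 ≤ M * M := mul_nonneg hM0 hM0
    rcases le_or_gt er 0 with h | h
    · nlinarith [mul_nonpos_iff.2 (Or.inr ⟨mul_nonpos_iff.2 (Or.inr ⟨h, hMM⟩),
        (by linarith : (0 : ℝ) ≤ c - 1)⟩)]
    · nlinarith [mul_le_mul_of_nonneg_left hcC (mul_nonneg h.le hMM),
        mul_pos h (by linarith : (0 : ℝ) < ‖T‖)]
  have hkc : k ≤ c ^ 2 - 2 * c := by rw [hk]; nlinarith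
  have hexp : (r + (c * ((2 - c - r / c) / (c - 1)) + er * (M * M)) / (c - 1)) * (c - 1) ^ 2
      = (c ^ 2 - 2 * c) * (r - 1) + er * (M * M) * (c - 1) := by
    have : c - 1 ≠ 0 := by linarith
    have : c ≠ 0 := by linarith
    field_simp
    ring
  have hneg : (c ^ 2 - 2 * c) * (r - 1) + er * (M * M) * (c - 1) < 0 := by nlinarith
  nlinarith [mul_nonneg hfin (sq_nonneg (c - 1))]

end Frame

end Vale.Agent.P123
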