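import Mathlib

/-!
A smooth convex contour around the convex hull of finitely many points, given by the
support function `h θ = m + L⁻¹ * log (∑ k, exp (L * Re (z k * e^{-iθ})))`.
-/

open Real
open scoped BigOperators

namespace Vale.Agent.P123.Contour

variable {ι : Type*} [Fintype ι]

/-- `Re (z * exp (-iθ))`. -/
noncomputable def aF (z : ℂ) (θ : ℝ) : ℝ := z.re * cos θ + z.im * sin θ

/-- The derivative of `aF`. -/
noncomputable def bF (z : ℂ) (θ : ℝ) : ℝ := z.im * cos θ - z.re * sin θ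

theorem hasDerivAt_aF (z : ℂ) (θ : ℝ) : HasDerivAt (aF z) (bF z θ) θ := by
  have := ((hasDerivAt_cos θ).const_mul z.re).add ((hasDerivAt_sin θ).const_mul z.im)
  refine this.congr_deriv ?_
  simp only [bF]; ring

theorem hasDerivAt_bF (z : ℂ) (θ : ℝ) : HasDerivAt (bF z) (-(aF z θ)) θ := by
  have := ((hasDerivAt_cos θ).const_mul z.im).sub ((hasDerivAt_sin θ).const_mul z.re)
  refine this.congr_deriv ?_
  simp only [aF]; ring

variable (z : ι → ℂ) (L : ℝ)

/-- The sum of exponentials. -/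
noncomputable def S (θ : ℝ) : ℝ := ∑ k, exp (L * aF (z k) θ)

/-- The weights. -/
noncomputable def wF (k : ι) (θ : ℝ) : ℝ := exp (L * aF (z k) θ) / S z L θ

theorem S_pos [Nonempty ι] (θ : ℝ) : 0 < S z L θ :=
  Finset.sum_pos (fun _ _ => exp_pos _) Finset.univ_nonempty

theorem wF_nonneg [Nonempty ι] (k : ι) (θ : ℝ) : 0 ≤ wF z L k θ :=
  div_nonneg (exp_pos _).le (S_pos z L θ).le

theorem sum_wF [Nonempty ι] (θ : ℝ) : ∑ k, wF z L k θ = 1 := by
  simp only [wF, ← Finset.sum_div]
  exact div_self (S_pos z L θ).ne'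

variable (m : ℝ)

/-- The support function. -/
noncomputable def hF (θ : ℝ) : ℝ := m + log (S z L θ) / L

/-- Its derivative. -/
noncomputable def h1F (θ : ℝ) : ℝ := ∑ k, wF z L k θ * bF (z k) θ

/-- Its second derivative. -/
noncomputable def h2F (θ : ℝ) : ℝ :=
  L * (∑ k, wF z L k θ * bF (z k) θ ^ 2 - h1F z L θ ^ 2) - ∑ k, wF z L k θ * aF (z k) θ

/-- The radius of curvature. -/
noncomputable def rho (θ : ℝ) : ℝ := hF z L m θ + h2F z L θ

/-- The contour. -/
noncomputable def gam (θ : ℝ) : ℂ :=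
  ((hF z L m θ : ℂ) + Complex.I * (h1F z L θ : ℂ)) * Complex.exp ((θ : ℂ) * Complex.I)

theorem hasDerivAt_S (θ : ℝ) :
    HasDerivAt (S z L) (∑ k, exp (L * aF (z k) θ) * (L * bF (z k) θ)) θ :=
  HasDerivAt.fun_sum fun k _ => ((hasDerivAt_aF (z k) θ).const_mul L).exp

theorem hasDerivAt_hF [Nonempty ι] (hL : L ≠ 0) (θ : ℝ) :
    HasDerivAt (hF z L m) (h1F z L θ) θ := by
  have := (((hasDerivAt_S z L θ).log (S_pos z L θ).ne').div_const L).const_add m
  refine this.congr_deriv ?_
  simp only [h1F, wF, Finset.sum_div]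
  refine Finset.sum_congr rfl fun k _ => ?_
  field_simp

theorem hasDerivAt_wF [Nonempty ι] (k : ι) (θ : ℝ) :
    HasDerivAt (wF z L k) (L * wF z L k θ * (bF (z k) θ - h1F z L θ)) θ := by
  have h : HasDerivAt (wF z L k) _ θ :=
    (((hasDerivAt_aF (z k) θ).const_mul L).exp).div (hasDerivAt_S z L θ) (S_pos z L θ).ne'
  refine h.congr_deriv ?_
  have hS := (S_pos z L θ).ne'
  have hsum : ∑ j, exp (L * aF (z j) θ) * (L * bF (z j) θ) = L * S z L θ * h1F z L θ := by
    simp only [h1F, wF, Finset.mul_sum]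
    refine Finset.sum_congr rfl fun j _ => ?_
    field_simp
  rw [hsum, wF]
  field_simp

theorem hasDerivAt_h1F [Nonempty ι] (θ : ℝ) :
    HasDerivAt (h1F z L) (h2F z L θ) θ := by
  have h : HasDerivAt (h1F z L) _ θ :=
    HasDerivAt.fun_sum fun k (_ : k ∈ Finset.univ) =>
      (hasDerivAt_wF z L k θ).mul (hasDerivAt_bF (z k) θ)
  refine h.congr_deriv ?_
  have : ∀ k, L * wF z L k θ * (bF (z k) θ - h1F z L θ) * bF (z k) θ + wF z L k θ * -aF (z k) θ
      = L * (wF z L k θ * bF (z k) θ ^ 2) - L * h1F z L θ * (wF z L k θ * bF (z k) θ)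
        - wF z L k θ * aF (z k) θ := fun k => by ring
  simp only [this, Finset.sum_sub_distrib, ← Finset.mul_sum]
  simp only [h2F]
  rw [show ∑ k, wF z L k θ * bF (z k) θ = h1F z L θ from rfl]
  ring

theorem hasDerivAt_gam [Nonempty ι] (hL : L ≠ 0) (θ : ℝ) :
    HasDerivAt (gam z L m)
      (Complex.I * (rho z L m θ : ℂ) * Complex.exp ((θ : ℂ) * Complex.I)) θ := by
  have he : HasDerivAt (fun t : ℝ => Complex.exp ((t : ℂ) * Complex.I))
      (Complex.exp ((θ : ℂ) * Complex.I) * Complex.I) θ := by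
    simpa using (((hasDerivAt_id (θ : ℂ)).mul_const Complex.I).cexp).comp_ofReal
  have h : HasDerivAt (gam z L m) _ θ :=
    (((hasDerivAt_hF z L m hL θ).ofReal_comp).add
      (((hasDerivAt_h1F z L θ).ofReal_comp).const_mul Complex.I)).mul he
  refine h.congr_deriv ?_
  simp only [rho, Pi.add_apply, Complex.ofReal_add]
  linear_combination
    (h1F z L θ : ℂ) * Complex.exp ((θ : ℂ) * Complex.I) * Complex.I_sq

theorem aF_le [Nonempty ι] (hL : 0 < L) (k : ι) (θ : ℝ) :
    aF (z k) θ ≤ log (S z L θ) / L := by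
  rw [le_div_iff₀ hL, mul_comm, le_log_iff_exp_le (S_pos z L θ)]
  exact Finset.single_le_sum (f := fun j => exp (L * aF (z j) θ))
    (fun j _ => (exp_pos _).le) (Finset.mem_univ k)

theorem hF_sub_avg_mem [Nonempty ι] (hL : 0 < L) (θ : ℝ) :
    m ≤ hF z L m θ - ∑ k, wF z L k θ * aF (z k) θ ∧
      hF z L m θ - ∑ k, wF z L k θ * aF (z k) θ ≤ m + (Fintype.card ι : ℝ) / L := by
  have heq : hF z L m θ - ∑ k, wF z L k θ * aF (z k) θ
      = m + ∑ k, wF z L k θ * (log (S z L θ) / L - aF (z k) θ) := by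
    simp only [mul_sub, Finset.sum_sub_distrib, ← Finset.sum_mul, sum_wF, hF]
    ring
  rw [heq]
  refine ⟨le_add_of_nonneg_right (Finset.sum_nonneg fun k _ =>
    mul_nonneg (wF_nonneg z L k θ) (sub_nonneg.2 (aF_le z L hL k θ))),
    add_le_add le_rfl ?_⟩
  have hk : ∀ k, wF z L k θ * (log (S z L θ) / L - aF (z k) θ) ≤ 1 / L := by
    intro k
    set x := log (S z L θ) - L * aF (z k) θ with hx
    have hw : wF z L k θ = exp (-x) := by
      rw [hx, neg_sub, exp_sub, exp_log (S_pos z L θ)]; rfl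
    have h1 : exp (-x) * x ≤ 1 := by
      have := add_one_le_exp x
      calc exp (-x) * x ≤ exp (-x) * exp x :=
            mul_le_mul_of_nonneg_left (by linarith) (exp_pos _).le
        _ = 1 := by rw [← exp_add]; simp
    calc wF z L k θ * (log (S z L θ) / L - aF (z k) θ) = exp (-x) * x / L := by
          rw [hw, hx]; field_simp
      _ ≤ 1 / L := div_le_div_of_nonneg_right h1 hL.le
  calc ∑ k, wF z L k θ * (log (S z L θ) / L - aF (z k) θ) ≤ ∑ _k : ι, 1 / L :=
        Finset.sum_le_sum fun k _ => hk k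
    _ = (Fintype.card ι : ℝ) / L := by simp [Finset.sum_const, nsmul_eq_mul]; ring

theorem rho_nonneg [Nonempty ι] (hL : 0 < L) (hm : 0 ≤ m) (θ : ℝ) : 0 ≤ rho z L m θ := by
  have h1 := (hF_sub_avg_mem z L m hL θ).1
  have hv : 0 ≤ ∑ k, wF z L k θ * bF (z k) θ ^ 2 - h1F z L θ ^ 2 := by
    have : 0 ≤ ∑ k, wF z L k θ * (bF (z k) θ - h1F z L θ) ^ 2 :=
      Finset.sum_nonneg fun k _ => mul_nonneg (wF_nonneg z L k θ) (sq_nonneg _)
    have heq : ∑ k, wF z L k θ * (bF (z k) θ - h1F z L θ) ^ 2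
        = ∑ k, wF z L k θ * bF (z k) θ ^ 2 - h1F z L θ ^ 2 := by
      have : ∀ k, wF z L k θ * (bF (z k) θ - h1F z L θ) ^ 2
          = wF z L k θ * bF (z k) θ ^ 2 - 2 * h1F z L θ * (wF z L k θ * bF (z k) θ)
            + h1F z L θ ^ 2 * wF z L k θ := fun k => by ring
      simp only [this, Finset.sum_sub_distrib, Finset.sum_add_distrib, ← Finset.mul_sum, sum_wF]
      rw [show ∑ k, wF z L k θ * bF (z k) θ = h1F z L θ from rfl]
      ring
    linarith
  simp only [rho, h2F]
  nlinarith [mul_nonneg hL.le hv]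

theorem gam_periodic (θ : ℝ) : gam z L m (θ + 2 * π) = gam z L m θ := by
  have he : Complex.exp (((θ + 2 * π : ℝ) : ℂ) * Complex.I)
      = Complex.exp ((θ : ℂ) * Complex.I) := by
    push_cast
    rw [add_mul, Complex.exp_add, Complex.exp_two_pi_mul_I, mul_one]
  simp only [gam, he, hF, h1F, S, wF, aF, bF, cos_add_two_pi, sin_add_two_pi]

theorem mul_conj_exp_re (w : ℂ) (θ : ℝ) :
    (starRingEnd ℂ (Complex.exp ((θ : ℂ) * Complex.I)) * w).re = aF w θ := by
  simp [aF, Complex.exp_mul_I, Complex.mul_re, ← Complex.ofReal_cos, ← Complex.ofReal_sin]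
  ring

theorem support_gam (θ : ℝ) :
    (starRingEnd ℂ (Complex.exp ((θ : ℂ) * Complex.I)) * gam z L m θ).re = hF z L m θ := by
  have hee : starRingEnd ℂ (Complex.exp ((θ : ℂ) * Complex.I))
      * Complex.exp ((θ : ℂ) * Complex.I) = 1 := by
    rw [← Complex.exp_conj, ← Complex.exp_add]; simp
  rw [gam, mul_left_comm, hee, mul_one]
  simp

theorem norm_gam_sub [Nonempty ι] (hL : 0 < L) (hm : 0 ≤ m) (θ : ℝ) :
    ‖gam z L m θ - ∑ k, wF z L k θ • z k‖ ≤ m + (Fintype.card ι : ℝ) / L := by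
  obtain ⟨h1, h2⟩ := hF_sub_avg_mem z L m hL θ
  have hz : ∀ k, z k = ((aF (z k) θ : ℂ) + Complex.I * (bF (z k) θ : ℂ))
      * Complex.exp ((θ : ℂ) * Complex.I) := by
    intro k
    have := cos_sq_add_sin_sq θ
    apply Complex.ext <;>
      simp [aF, bF, Complex.exp_mul_I, Complex.mul_re, Complex.mul_im,
        ← Complex.ofReal_cos, ← Complex.ofReal_sin]
    · linear_combination (-(z k).re) * this
    · linear_combination (-(z k).im) * this
  have : gam z L m θ - ∑ k, wF z L k θ • z k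
      = ((hF z L m θ - ∑ k, wF z L k θ * aF (z k) θ : ℝ) : ℂ)
        * Complex.exp ((θ : ℂ) * Complex.I) := by
    have hs : ∑ k, wF z L k θ • z k = ((∑ k, wF z L k θ * aF (z k) θ : ℝ) : ℂ)
        * Complex.exp ((θ : ℂ) * Complex.I) + Complex.I * (h1F z L θ : ℂ)
        * Complex.exp ((θ : ℂ) * Complex.I) := by
      simp only [h1F, Complex.ofReal_sum, Finset.mul_sum, Finset.sum_mul, ← Finset.sum_add_distrib]
      refine Finset.sum_congr rfl fun k _ => ?_
      rw [Complex.real_smul]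
      conv_lhs => rw [hz k]
      push_cast; ring
    rw [hs, gam]; push_cast; ring
  rw [this, norm_mul, Complex.norm_exp_ofReal_mul_I, mul_one, Complex.norm_real,
    Real.norm_eq_abs, abs_of_nonneg (hm.trans h1)]
  exact h2

theorem continuous_rho [Nonempty ι] : Continuous (rho z L m) := by
  have hS : ∀ θ, S z L θ ≠ 0 := fun θ => (S_pos z L θ).ne'
  have ha : ∀ k, Continuous (aF (z k)) := fun k => by unfold aF; fun_prop
  have hb : ∀ k, Continuous (bF (z k)) := fun k => by unfold bF; fun_prop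
  have hSc : Continuous (S z L) := by unfold S; fun_prop
  have hw : ∀ k, Continuous (wF z L k) := fun k => by
    unfold wF; exact Continuous.div (by fun_prop) hSc hS
  have hh : Continuous (hF z L m) := by
    unfold hF; exact continuous_const.add ((hSc.log hS).div_const L)
  unfold rho h2F h1F
  fun_prop

end Vale.Agent.P123.Contour
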