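import Mathlib

/-!
Definitions for the statement of the numerical range bound.
-/

namespace Vale.Agent.P123

universe u

/-- The numerical range of a bounded operator: the values `⟪x, A x⟫` (linear in `A x`)
over unit vectors `x`. -/
def numRange {H : Type u} [NormedAddCommGroup H] [InnerProductSpace ℂ H]
    (A : H →L[ℂ] H) : Set ℂ :=
  {z | ∃ x : H, ‖x‖ = 1 ∧ inner ℂ x (A x) = z}

/-- `C` is admissible if `‖P(A)‖ ≤ C · sup_{z ∈ W(A)} |P(z)|` for every nonzero complex
Hilbert space in universe `u`, every bounded operator and every polynomial. -/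
def Admissible (C : ℝ) : Prop :=
  ∀ (H : Type u) [NormedAddCommGroup H] [InnerProductSpace ℂ H] [CompleteSpace H] [Nontrivial H]
    (A : H →L[ℂ] H) (P : Polynomial ℂ),
    ‖Polynomial.aeval A P‖ ≤ C * sSup ((fun z => ‖P.eval z‖) '' numRange A)

end Vale.Agent.P123
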