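import Mathlib
import Vale.Agent.P123.Defs

/-!
Basic facts about the numerical range, including its convexity.
-/

open scoped ComplexConjugate
open Complex

namespace Vale.Agent.P123

variable {H : Type*} [NormedAddCommGroup H] [InnerProductSpace ℂ H]

/-- The quadratic form at a nonzero vector, normalised, lies in the numerical range. -/
theorem inner_div_mem_numRange (A : H →L[ℂ] H) {v : H} (hv : v ≠ 0) :
    inner ℂ v (A v) / ((‖v‖ : ℂ) ^ 2) ∈ numRange A := by
  refine ⟨((‖v‖ : ℂ))⁻¹ • v, ?_, ?_⟩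
  · rw [norm_smul, norm_inv, Complex.norm_real, norm_norm]
    exact inv_mul_cancel₀ (norm_ne_zero_iff.2 hv)
  · rw [map_smul, inner_smul_left, inner_smul_right, map_inv₀, Complex.conj_ofReal]
    field_simp

theorem numRange_nonempty [Nontrivial H] (A : H →L[ℂ] H) : (numRange A).Nonempty := by
  obtain ⟨v, hv⟩ := exists_ne (0 : H)
  exact ⟨_, inner_div_mem_numRange A hv⟩

theorem norm_le_of_mem_numRange (A : H →L[ℂ] H) {z : ℂ} (hz : z ∈ numRange A) : ‖z‖ ≤ ‖A‖ := by
  obtain ⟨x, hx, rfl⟩ := hz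
  calc ‖inner ℂ x (A x)‖ ≤ ‖x‖ * ‖A x‖ := norm_inner_le_norm _ _
    _ ≤ ‖A‖ := by
      rw [hx, one_mul]
      simpa [hx] using A.le_opNorm x

/-- The numerical range is convex (Toeplitz and Hausdorff). -/
theorem convex_numRange (A : H →L[ℂ] H) : Convex ℝ (numRange A) := by
  intro z₁ hz₁ z₂ hz₂ a b ha hb hab
  by_cases hz : z₁ = z₂
  · subst hz
    rwa [← add_smul, hab, one_smul]
  obtain ⟨x, hx, hxz⟩ := hz₁
  obtain ⟨y, hy, hyz⟩ := hz₂
  have hx0 : x ≠ 0 := by
    intro h
    simp [h] at hx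
  have hd : z₂ - z₁ ≠ 0 := sub_ne_zero.2 (Ne.symm hz)
  set B : H →L[ℂ] H := (z₂ - z₁)⁻¹ • (A - z₁ • ContinuousLinearMap.id ℂ H) with hB
  have hBform : ∀ v : H,
      inner ℂ v (B v) = (z₂ - z₁)⁻¹ * (inner ℂ v (A v) - z₁ * (‖v‖ : ℂ) ^ 2) := by
    intro v
    rw [hB]
    simp [inner_smul_right, inner_sub_right, inner_self_eq_norm_sq_to_K]
  have hBx : inner ℂ x (B x) = 0 := by
    rw [hBform, hxz, hx]; simp
  have hBy : inner ℂ y (B y) = 1 := by
    rw [hBform, hyz, hy]; simp [hd]
  set d : ℂ := inner ℂ x (B y) - conj (inner ℂ y (B x)) with hd'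
  set l : ℂ := if d = 0 then 1 else conj d with hl
  have hl0 : l ≠ 0 := by
    rw [hl]; split
    · exact one_ne_zero
    · simpa using ‹¬d = 0›
  have hlim : (l * d).im = 0 := by
    rw [hl]; split
    · simp [‹d = 0›]
    · simp [Complex.mul_im]; ring
  set v : ℝ → H := fun t => ((1 - t : ℝ) : ℂ) • x + ((t : ℂ) * l) • y with hv
  have hq : ∀ t : ℝ, inner ℂ (v t) (B (v t)) =
      ((1 - t : ℝ) : ℂ) * (t : ℂ) * (l * inner ℂ x (B y) + conj l * inner ℂ y (B x))
        + (t : ℂ) ^ 2 * (conj l * l) := by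
    intro t
    simp only [hv, map_add, map_smul, inner_add_left, inner_add_right, inner_smul_left,
      inner_smul_right, hBx, hBy, map_mul, Complex.conj_ofReal]
    ring
  have hqim : ∀ t : ℝ, (inner ℂ (v t) (B (v t))).im = 0 := by
    intro t
    have h1 : (l * inner ℂ x (B y) + conj l * inner ℂ y (B x)).im = 0 := by
      rw [hd'] at hlim
      generalize inner ℂ x (B y) = p, inner ℂ y (B x) = r at hlim ⊢
      simp [Complex.mul_im, Complex.add_im] at hlim ⊢
      linarith
    rw [hq]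
    simp only [Complex.add_im, Complex.mul_im, Complex.mul_re, Complex.ofReal_im,
      Complex.ofReal_re, h1, pow_two, Complex.conj_re, Complex.conj_im]
    ring
  have hvne : ∀ t : ℝ, v t ≠ 0 := by
    intro t h
    by_cases ht : t = 0
    · subst ht
      simp [hv, hx0] at h
    · have htl : ((t : ℂ) * l) ≠ 0 := mul_ne_zero (by exact_mod_cast ht) hl0
      have hy' : y = (-(((t : ℂ) * l)⁻¹ * ((1 - t : ℝ) : ℂ))) • x := by
        simp only [hv] at h
        have := congrArg (fun u => ((t : ℂ) * l)⁻¹ • u) (eq_neg_of_add_eq_zero_right h)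
        simp only [smul_smul, inv_mul_cancel₀ htl, one_smul, smul_neg] at this
        rw [this, neg_smul]
      have : inner ℂ y (B y) = 0 := by
        rw [hy', map_smul, inner_smul_left, inner_smul_right, hBx]; ring
      rw [hBy] at this
      exact one_ne_zero this
  set g : ℝ → ℝ := fun t => (inner ℂ (v t) (B (v t))).re / ‖v t‖ ^ 2 with hg
  have hvc : Continuous v := by
    rw [hv]; fun_prop
  have hgc : Continuous g := by
    refine Continuous.div ?_ ?_ ?_
    · exact Complex.continuous_re.comp (hvc.inner (B.continuous.comp hvc))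
    · fun_prop
    · intro t
      exact pow_ne_zero _ (norm_ne_zero_iff.2 (hvne t))
  have hg0 : g 0 = 0 := by
    simp [hg, hv, hBx]
  have hg1 : g 1 = 1 := by
    have hv1 : v 1 = l • y := by simp [hv]
    simp only [hg, hv1, map_smul, inner_smul_left, inner_smul_right, hBy, norm_smul, hy]
    have : l.re * l.re + l.im * l.im = ‖l‖ ^ 2 := by
      rw [Complex.sq_norm]; rfl
    simp [Complex.mul_re, this, hl0]
  have hb1 : b ≤ 1 := by linarith
  obtain ⟨t, -, ht⟩ : b ∈ g '' Set.Icc (0 : ℝ) 1 := by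
    apply intermediate_value_Icc zero_le_one hgc.continuousOn
    rw [hg0, hg1]; exact ⟨hb, hb1⟩
  have hmem := inner_div_mem_numRange A (hvne t)
  have hn : ((‖v t‖ : ℂ) ^ 2) ≠ 0 := by
    simp [hvne t]
  have hqt : inner ℂ (v t) (B (v t)) = ((b * ‖v t‖ ^ 2 : ℝ) : ℂ) := by
    apply Complex.ext
    · rw [Complex.ofReal_re, ← ht, hg]
      field_simp [norm_ne_zero_iff.2 (hvne t)]
    · rw [Complex.ofReal_im, hqim]
  rw [hBform] at hqt
  have : inner ℂ (v t) (A (v t)) / ((‖v t‖ : ℂ) ^ 2) = a • z₁ + b • z₂ := by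
    have ha' : (a : ℂ) = 1 - b := by
      rw [eq_sub_iff_add_eq]; exact_mod_cast hab
    rw [Complex.real_smul, Complex.real_smul, ha', div_eq_iff hn]
    push_cast at hqt
    field_simp at hqt
    linear_combination hqt
  rwa [this] at hmem

end Vale.Agent.P123
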