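import Mathlib
import Vale.Agent.P123.Defs

/-!
Sharpness: the two by two nilpotent matrix.
-/

open scoped ComplexConjugate
open Complex

namespace Vale.Agent.P123

universe u

theorem two_le_of_admissible {C : ℝ} (hC : Admissible.{u} C) : 2 ≤ C := by
  set ι := ULift.{u} (Fin 2) with hι
  set e0 : EuclideanSpace ℂ ι := EuclideanSpace.single ⟨0⟩ 1 with he0
  set e1 : EuclideanSpace ℂ ι := EuclideanSpace.single ⟨1⟩ 1 with he1
  set A : EuclideanSpace ℂ ι →L[ℂ] EuclideanSpace ℂ ι := (innerSL ℂ e1).smulRight e0 with hA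
  have hAv : ∀ v, A v = inner ℂ e1 v • e0 := fun v => by simp [hA]
  have hn0 : ‖e0‖ = 1 := by simp [he0]
  have hn1 : ‖e1‖ = 1 := by simp [he1]
  have hnorm : 1 ≤ ‖A‖ := by
    have h := A.le_opNorm e1
    rw [hAv, inner_self_eq_norm_sq_to_K, hn1, norm_smul, hn0] at h
    simpa using h
  have hW : ∀ z ∈ numRange A, ‖z‖ ≤ 1 / 2 := by
    rintro z ⟨x, hx, rfl⟩
    rw [hAv, inner_smul_right, norm_mul]
    have h := EuclideanSpace.norm_sq_eq x
    rw [hx, Fintype.sum_equiv Equiv.ulift (fun i => ‖x i‖ ^ 2)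
      (fun j : Fin 2 => ‖x ⟨j⟩‖ ^ 2) (fun i => rfl), Fin.sum_univ_two] at h
    have a : inner ℂ e1 x = x ⟨1⟩ := by simp [he1, EuclideanSpace.inner_single_left]
    have b : ‖inner ℂ x e0‖ = ‖x ⟨0⟩‖ := by
      simp [he0, EuclideanSpace.inner_single_right]
    rw [a, b]
    nlinarith [sq_nonneg (‖x ⟨0⟩‖ - ‖x ⟨1⟩‖)]
  have h := hC _ A Polynomial.X
  rw [Polynomial.aeval_X] at h
  set s := sSup ((fun z => ‖(Polynomial.X : Polynomial ℂ).eval z‖) '' numRange A) with hs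
  have hs1 : s ≤ 1 / 2 := by
    refine Real.sSup_le ?_ (by norm_num)
    rintro r ⟨z, hz, rfl⟩
    simpa using hW z hz
  have hs0 : 0 ≤ s := Real.sSup_nonneg (by rintro r ⟨z, -, rfl⟩; exact norm_nonneg _)
  rcases le_or_gt C 0 with hC0 | hC0
  · nlinarith
  · nlinarith

end Vale.Agent.P123
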