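import Mathlib
import Vale.Agent.P123.Defs
import Vale.Agent.P123.Convexity
import Vale.Agent.P123.Contour
import Vale.Agent.P123.Bound

/-!
The constant `2` for the numerical range, and its sharpness.
-/

open scoped ComplexConjugate
open Complex

namespace Vale.Agent.P123

universe u

variable {H : Type u} [NormedAddCommGroup H] [InnerProductSpace ℂ H] [CompleteSpace H]
  [Nontrivial H]

/-- Contours arbitrarily close to the numerical range. -/
theorem exists_frame (A : H →L[ℂ] H) {δ : ℝ} (hδ : 0 < δ) :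
    ∃ F : Frame A, ∀ θ, ∃ w ∈ numRange A, ‖F.γ θ - w‖ ≤ δ := by
  have hsub : numRange A ⊆ Metric.closedBall 0 ‖A‖ := fun z hz => by
    simpa [dist_zero_right] using norm_le_of_mem_numRange A hz
  have htb : TotallyBounded (numRange A) :=
    TotallyBounded.subset hsub (isCompact_closedBall _ _).totallyBounded
  obtain ⟨t, htW, htf, hcov⟩ := Metric.finite_approx_of_totallyBounded htb (δ / 3) (by linarith)
  have : Fintype t := htf.fintype
  have hne : Nonempty t := by
    obtain ⟨z, hz⟩ := numRange_nonempty A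
    obtain ⟨i, hi, -⟩ := Set.mem_iUnion₂.1 (hcov hz)
    exact ⟨⟨i, hi⟩⟩
  set z : t → ℂ := fun k => (k : ℂ) with hz
  set L : ℝ := 3 * ((Fintype.card t : ℝ) + 1) / δ with hL
  have hLpos : 0 < L := by positivity
  set m : ℝ := 2 * (δ / 3) with hm
  have hmpos : 0 ≤ m := by positivity
  obtain ⟨k₀⟩ := hne
  have hne : Nonempty t := ⟨k₀⟩
  have hsupp : ∀ θ, ∀ u ∈ numRange A,
      δ / 3 ≤ Contour.hF z L m θ - Contour.aF u θ := by
    intro θ u hu
    obtain ⟨i, hi, hui⟩ := Set.mem_iUnion₂.1 (hcov hu)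
    have h1 := Contour.aF_le z L hLpos ⟨i, hi⟩ θ
    have h2 : Contour.aF u θ - Contour.aF i θ ≤ δ / 3 := by
      rw [← Contour.mul_conj_exp_re, ← Contour.mul_conj_exp_re, ← Complex.sub_re, ← mul_sub]
      refine (Complex.re_le_norm _).trans ?_
      rw [norm_mul, RCLike.norm_conj, Complex.norm_exp_ofReal_mul_I, one_mul]
      rw [← dist_eq_norm]
      exact (Metric.mem_ball.1 hui).le
    simp only [Contour.hF, hm, hz] at *
    linarith
  refine ⟨{ γ := Contour.gam z L m
            ρ := Contour.rho z L m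
            ε := δ / 3
            z0 := z k₀
            ε_pos := by linarith
            ρ_nonneg := Contour.rho_nonneg z L m hLpos hmpos
            ρ_cont := Contour.continuous_rho z L m
            γ_deriv := fun θ => Contour.hasDerivAt_gam z L m hLpos.ne' θ
            γ_per := by simpa using Contour.gam_periodic z L m 0
            supp := ?_
            supp0 := ?_ }, ?_⟩
  · intro θ v
    rcases eq_or_ne v 0 with rfl | hv
    · simp
    have hmem := inner_div_mem_numRange A hv
    have h := hsupp θ _ hmem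
    have hn : (0 : ℝ) < ‖v‖ ^ 2 := by positivity
    have hn' : ((‖v‖ : ℂ) ^ 2) ≠ 0 := by simp [hv]
    set q : ℂ := inner ℂ v (A v) / ((‖v‖ : ℂ) ^ 2) with hq
    have : conj (e θ) * inner ℂ v (Contour.gam z L m θ • v - A v)
        = ((‖v‖ ^ 2 : ℝ) : ℂ) * (conj (e θ) * Contour.gam z L m θ - conj (e θ) * q) := by
      have hqn : inner ℂ v (A v) = q * ((‖v‖ : ℂ) ^ 2) := by rw [hq, div_mul_cancel₀ _ hn']
      rw [inner_sub_right, inner_smul_right, inner_self_eq_norm_sq_to_K, hqn]
      push_cast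
      simp only [Complex.coe_algebraMap]
      ring
    rw [this, Complex.re_ofReal_mul, Complex.sub_re, e, Contour.support_gam,
      Contour.mul_conj_exp_re]
    nlinarith
  · intro θ
    rw [mul_sub, Complex.sub_re, e, Contour.support_gam, Contour.mul_conj_exp_re]
    exact hsupp θ _ (htW k₀.2)
  · intro θ
    refine ⟨∑ k, Contour.wF z L k θ • z k, (convex_numRange A).sum_mem
      (fun k _ => Contour.wF_nonneg z L k θ) (Contour.sum_wF z L θ)
      (fun k _ => htW k.2), ?_⟩
    refine (Contour.norm_gam_sub z L m hLpos hmpos θ).trans ?_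
    have : (Fintype.card t : ℝ) / L ≤ δ / 3 := by
      rw [hL, div_div_eq_mul_div, div_le_iff₀ (by positivity)]
      nlinarith
    rw [hm]; linarith

/-- The bound `2`. -/
theorem norm_aeval_le (A : H →L[ℂ] H) (P : Polynomial ℂ) :
    ‖Polynomial.aeval A P‖ ≤ 2 * sSup ((fun z => ‖P.eval z‖) '' numRange A) := by
  set s := sSup ((fun z => ‖P.eval z‖) '' numRange A) with hs
  have hbdd : BddAbove ((fun z => ‖P.eval z‖) '' numRange A) := by
    refine ((isCompact_closedBall (0 : ℂ) ‖A‖).bddAbove_image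
      P.continuous.norm.continuousOn).mono (Set.image_mono ?_)
    intro z hz
    simpa [dist_zero_right] using norm_le_of_mem_numRange A hz
  have hle : ∀ w ∈ numRange A, ‖P.eval w‖ ≤ s := fun w hw =>
    le_csSup hbdd ⟨w, hw, rfl⟩
  have hs0 : 0 ≤ s := by
    obtain ⟨w, hw⟩ := numRange_nonempty A
    exact (norm_nonneg _).trans (hle w hw)
  refine le_of_forall_pos_le_add fun η hη => ?_
  have hr : 0 < s + η / 2 := by linarith
  have huc := (isCompact_closedBall (0 : ℂ) (‖A‖ + 1)).uniformContinuousOn_of_continuous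
    P.continuous.continuousOn
  obtain ⟨d, hd, hd'⟩ := Metric.uniformContinuousOn_iff.1 huc (η / 2) (by linarith)
  obtain ⟨F, hF⟩ := exists_frame A (δ := min (d / 2) 1) (by positivity)
  have hb : ∀ θ, ‖(Polynomial.C (((s + η / 2)⁻¹ : ℝ) : ℂ) * P).eval (F.γ θ)‖ ≤ 1 := by
    intro θ
    obtain ⟨w, hw, hwd⟩ := hF θ
    have h1 : dist (F.γ θ) w < d := by
      rw [dist_eq_norm]
      linarith [min_le_left (d / 2) 1]
    have h2 : w ∈ Metric.closedBall (0 : ℂ) (‖A‖ + 1) := by
      rw [mem_closedBall_zero_iff]; linarith [norm_le_of_mem_numRange A hw]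
    have h3 : F.γ θ ∈ Metric.closedBall (0 : ℂ) (‖A‖ + 1) := by
      rw [mem_closedBall_zero_iff]
      calc ‖F.γ θ‖ = ‖(F.γ θ - w) + w‖ := by rw [sub_add_cancel]
        _ ≤ ‖F.γ θ - w‖ + ‖w‖ := norm_add_le _ _
        _ ≤ ‖A‖ + 1 := by linarith [norm_le_of_mem_numRange A hw, min_le_right (d / 2) 1]
    have h4 := hd' _ h3 _ h2 h1
    rw [dist_eq_norm] at h4
    rw [Polynomial.eval_mul, Polynomial.eval_C, norm_mul, Complex.norm_real, Real.norm_eq_abs,
      abs_of_pos (inv_pos.2 hr), inv_mul_le_iff₀ hr, mul_one]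
    linarith [norm_sub_norm_le (P.eval (F.γ θ)) (P.eval w), hle w hw]
  have h := F.norm_aeval_le_two _ hb
  rw [map_mul, Polynomial.aeval_C, ← Algebra.smul_def, norm_smul, Complex.norm_real,
    Real.norm_eq_abs, abs_of_pos (inv_pos.2 hr), inv_mul_le_iff₀ hr] at h
  linarith

theorem admissible_two : Admissible.{u} 2 := by
  intro H _ _ _ _ A P
  exact norm_aeval_le A P

end Vale.Agent.P123
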